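import Vale.Agent.P224.S11.K.K0
import Vale.Agent.P224.S11.K.K1
import Vale.Agent.P224.S11.K.K2
import Vale.Agent.P224.S11.K.K3
import Vale.Agent.P224.S11.K.K4
import Vale.Agent.P224.S11.K.K5
import Vale.Agent.P224.S11.K.K6
import Vale.Agent.P224.S11.K.K7
import Vale.Agent.P224.S11.K.K8
import Vale.Agent.P224.S11.K.K9
import Vale.Agent.P224.S11.K.K10
import Vale.Agent.P224.S11.K.K11
import Vale.Agent.P224.S11.K.K12
import Vale.Agent.P224.S11.K.K13
import Vale.Agent.P224.S11.K.K14
import Vale.Agent.P224.S11.K.K15
import Vale.Agent.P224.S11.K.K16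
import Vale.Agent.P224.S11.K.K17
import Vale.Agent.P224.S11.TSum

/-!
The sum over the Bernstein coefficients.
-/

namespace Vale.Agent.P224.S11.K.TS

open Vale.Agent.P224.UE Vale.Agent.P224.POS Vale.Agent.P224.PO Vale.Agent.P224.S11
open scoped RealInnerProductSpace

noncomputable section

/-- the polynomial in `s, τ, u, v, T` -/
def Q : PE :=
  .add (.add (.mul (.v 3) (.mul (.v 3) (.add (.add (.c 7867350231) (.mul (.v 0) (.add (.c (-40298570590)) (.mul (.v 0) (.add (.c 132841024898) (.mul (.v 0) (.c (-38823392254)))))))) (.mul (.v 1) (.add (.add (.c (-66956105772)) (.mul (.v 0) (.add (.c (-97806585620)) (.mul (.v 0) (.add (.c 326350244344) (.mul (.v 0) (.c (-309257993088)))))))) (.mul (.v 1) (.add (.c 423030068736) (.mul (.v 0) (.add (.c 4885977752832) (.mul (.v 0) (.add (.c 17890180399872) (.mul (.v 0) (.c (-4668470906880)))))))))))))) (.mul (.v 2) (.mul (.v 2) (.add (.add (.add (.add (.c 278416042961925) (.mul (.v 0) (.add (.c 85779357576932) (.mul (.v 0) (.add (.c (-177756187806602)) (.mul (.v 0) (.add (.c 28518982475122)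 (.mul (.v 0) (.c 61076207030784))))))))) (.mul (.v 1) (.add (.add (.c (-39547983819014)) (.mul (.v 0) (.add (.c (-216649517013634)) (.mul (.v 0) (.add (.c 18852645949892) (.mul (.v 0) (.add (.c 9974091073296) (.mul (.v 0) (.add (.c 6425294872092) (.mul (.v 0) (.add (.c 89640) (.mul (.v 0) (.c 23100))))))))))))) (.mul (.v 1) (.add (.add (.c 171470296030632) (.mul (.v 0) (.add (.c 2098449824790774) (.mul (.v 0) (.add (.c (-1836439470765504)) (.mul (.v 0) (.add (.c 626144475166848) (.mul (.v 0) (.c 10315911412224))))))))) (.mul (.v 1) (.add (.c 409584807283800) (.mul (.v 0) (.add (.c (-1227394036465344)) (.mul (.v 0) (.add (.c 547725111918336) (.mul (.v 0) (.c 10315911412224))))))))))))) (.mul (.v 3) (.add (.add (.c (-53219929567478)) (.mul (.v 0) (.add (.c (-281297390017626)) (.mul (.v 0) (.add (.c (-108110117332244)) (.mul (.v 0) (.c 61076207030784))))))) (.mul (.v 1) (.add (.add (.c (-128920998105928)) (.mul (.v 0) (.add (.c (-98114229703418)) (.mul (.v 0) (.add (.c (-100018653335040)) (.mul (.v 0) (.c 6425294760192))))))) (.mul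 (.v 1) (.add (.c 409584806790720) (.mul (.v 0) (.add (.c (-1227394036465344)) (.mul (.v 0) (.add (.c 547725111918336) (.mul (.v 0) (.c 10315911412224))))))))))))) (.mul (.v 2) (.mul (.v 2) (.add (.add (.c (-1103460)) (.mul (.v 0) (.c (-126000)))) (.mul (.v 1) (.c (-748860)))))))))) (.mul (.v 4) (.add (.add (.mul (.v 3) (.mul (.v 3) (.add (.add (.c 16721717686) (.mul (.v 0) (.add (.c (-46757611555)) (.mul (.v 0) (.add (.c 145881198296) (.mul (.v 0) (.add (.c (-363609459594)) (.mul (.v 0) (.c (-77646784516)))))))))) (.mul (.v 1) (.add (.add (.c (-472416407456)) (.mul (.v 0) (.add (.c (-2463605706252)) (.mul (.v 0) (.add (.c 7070361114552) (.mul (.v 0) (.add (.c (-2545131472496)) (.mul (.v 0) (.c (-618515986176)))))))))) (.mul (.v 1) (.add (.c 3108493177088) (.mul (.v 0) (.add (.c 41357808392576) (.mul (.v 0) (.add (.c 113642988505088) (.mul (.v 0) (.add (.c (-167397039962112)) (.mul (.v 0) (.c (-18673883627520)))))))))))))))) (.mul (.v 2) (.mul (.v 2) (.add (.add (.add (.add (.c (-271493827253918)) (.mul (.v 0) (.add (.c (-1752883417878501))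 (.mul (.v 0) (.add (.c 308310213261194) (.mul (.v 0) (.add (.c 1462578131096634) (.mul (.v 0) (.add (.c (-66514845353444)) (.mul (.v 0) (.c 244304828123136))))))))))) (.mul (.v 1) (.add (.add (.c (-212351592296230)) (.mul (.v 0) (.add (.c (-75311301367666)) (.mul (.v 0) (.add (.c 2678687263571316) (.mul (.v 0) (.add (.c 305829750595464) (.mul (.v 0) (.add (.c (-637392725813292)) (.mul (.v 0) (.add (.c 25701143689728) (.mul (.v 0) (.add (.c (-9267420)) (.mul (.v 0) (.c (-46200)))))))))))))))) (.mul (.v 1) (.add (.add (.c (-3502619189959272)) (.mul (.v 0) (.add (.c (-21983573885672836)) (.mul (.v 0) (.add (.c (-31238311722991100)) (.mul (.v 0) (.add (.c 36229517977616640) (.mul (.v 0) (.add (.c (-8687034281620608)) (.mul (.v 0) (.c 61895468473344))))))))))) (.mul (.v 1) (.add (.c 365699165535984) (.mul (.v 0) (.add (.c 750415359195600) (.mul (.v 0) (.add (.c 15519964746064896) (.mul (.v 0) (.add (.c (-9144699871591296)) (.mul (.v 0) (.c 61895468473344))))))))))))))) (.mul (.v 3) (.add (.add (.c (-41594319856254)) (.mul (.v 0) (.add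 (.c 322043867823558) (.mul (.v 0) (.add (.c 407660811763096) (.mul (.v 0) (.add (.c (-613031244549288)) (.mul (.v 0) (.c 244304828123136))))))))) (.mul (.v 1) (.add (.add (.c 730613657119680) (.mul (.v 0) (.add (.c 3406812489894156) (.mul (.v 0) (.add (.c (-1697396100264924)) (.mul (.v 0) (.add (.c (-1077363658797696)) (.mul (.v 0) (.c 25701179040768))))))))) (.mul (.v 1) (.add (.c 365699333998464) (.mul (.v 0) (.add (.c 750415359968640) (.mul (.v 0) (.add (.c 15519964746064896) (.mul (.v 0) (.add (.c (-9144699871591296)) (.mul (.v 0) (.c 61895468473344))))))))))))))) (.mul (.v 2) (.mul (.v 2) (.add (.add (.c (-6588733957910160)) (.mul (.v 0) (.add (.c 51459480) (.mul (.v 0) (.c 252000))))) (.mul (.v 1) (.add (.c 255453480) (.mul (.v 0) (.c 1104120))))))))))) (.mul (.v 4) (.add (.add (.mul (.v 3) (.mul (.v 3) (.add (.add (.c (-332357998406)) (.mul (.v 0) (.add (.c 1774884588350) (.mul (.v 0) (.add (.c (-3960695191830)) (.mul (.v 0) (.add (.c (-18361333116920)) (.mul (.v 0) (.add (.c 32807495967630) (.mul (.v 0) (.c 465880707074)))))))))))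 (.mul (.v 1) (.add (.add (.c 8478958542400) (.mul (.v 0) (.add (.c 27172319739796) (.mul (.v 0) (.add (.c (-133462958997048)) (.mul (.v 0) (.add (.c 91144672718476) (.mul (.v 0) (.add (.c (-212312436872)) (.mul (.v 0) (.c 3711095917056))))))))))) (.mul (.v 1) (.add (.c (-52300389009768)) (.mul (.v 0) (.add (.c (-596519836070720)) (.mul (.v 0) (.add (.c (-1554367540743104)) (.mul (.v 0) (.add (.c 2500425047131264) (.mul (.v 0) (.add (.c (-307358329811712)) (.mul (.v 0) (.c 51353179975680))))))))))))))))) (.mul (.v 2) (.mul (.v 2) (.add (.add (.add (.add (.c 6246846984793646) (.mul (.v 0) (.add (.c 2466299303317088) (.mul (.v 0) (.add (.c (-11436416707666991)) (.mul (.v 0) (.add (.c (-7687814582200078)) (.mul (.v 0) (.add (.c 591687816933946) (.mul (.v 0) (.add (.c (-520604226451982)) (.mul (.v 0) (.c (-671838277338624)))))))))))))) (.mul (.v 1) (.add (.add (.c 830911009197408) (.mul (.v 0) (.add (.c 4464429044278612) (.mul (.v 0) (.add (.c (-34075313634967094)) (.mul (.v 0) (.add (.c (-15164253843875746)) (.mul (.v 0) (.add (.c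 15097476348227068) (.mul (.v 0) (.add (.c (-460623594651216)) (.mul (.v 0) (.add (.c (-70677573689412)) (.mul (.v 0) (.add (.c 18265920) (.mul (.v 0) (.c 23100))))))))))))))))) (.mul (.v 1) (.add (.add (.c 67518606384235782) (.mul (.v 0) (.add (.c 167419109198722500) (.mul (.v 0) (.add (.c 731777836696011664) (.mul (.v 0) (.add (.c (-729699508884919738)) (.mul (.v 0) (.add (.c 236484441547447104) (.mul (.v 0) (.add (.c (-29293321034492544)) (.mul (.v 0) (.c (-72211379885568)))))))))))))) (.mul (.v 1) (.add (.c (-40021093505130480)) (.mul (.v 0) (.add (.c 46411228575123936) (.mul (.v 0) (.add (.c (-269928769687037160)) (.mul (.v 0) (.add (.c 182646882703880064) (.mul (.v 0) (.add (.c (-28718684312712192)) (.mul (.v 0) (.c (-72211379885568)))))))))))))))))) (.mul (.v 3) (.add (.add (.add (.c 3273085404459678) (.mul (.v 0) (.add (.c 1846438320409450) (.mul (.v 0) (.add (.c (-6737635327531198)) (.mul (.v 0) (.add (.c 8722536160988286) (.mul (.v 0) (.add (.c 982315871358524) (.mul (.v 0) (.c (-671838277338624)))))))))))) (.mul (.v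 1) (.add (.add (.c (-6820811917563418)) (.mul (.v 0) (.add (.c (-52673840028099932)) (.mul (.v 0) (.add (.c 28092374892110848) (.mul (.v 0) (.add (.c 15826415988929174) (.mul (.v 0) (.add (.c 749294192141760) (.mul (.v 0) (.c (-70678242362112)))))))))))) (.mul (.v 1) (.add (.c (-14106884302397760)) (.mul (.v 0) (.add (.c 46411228307739456) (.mul (.v 0) (.add (.c (-269928769687317120)) (.mul (.v 0) (.add (.c 182646882703880064) (.mul (.v 0) (.add (.c (-28718684312712192)) (.mul (.v 0) (.c (-72211379885568)))))))))))))))) (.mul (.v 3) (.c 133970679437400))))) (.mul (.v 2) (.mul (.v 2) (.add (.add (.c (-50711332747878840)) (.mul (.v 0) (.add (.c (-9479848426723920)) (.mul (.v 0) (.add (.c (-100043940)) (.mul (.v 0) (.c (-126000)))))))) (.mul (.v 1) (.add (.c 25914204196280520) (.mul (.v 0) (.add (.c (-378295440)) (.mul (.v 0) (.c (-355260)))))))))))))) (.mul (.v 4) (.add (.add (.mul (.v 3) (.mul (.v 3) (.add (.add (.c 2506406993532) (.mul (.v 0) (.add (.c (-17512719834302)) (.mul (.v 0) (.add (.c 115499831469288) (.mul (.v 0) (.add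 (.c (-231096883319718)) (.mul (.v 0) (.add (.c 295228366562016) (.mul (.v 0) (.add (.c (-97569241394054)) (.mul (.v 0) (.c (-543527491584)))))))))))))) (.mul (.v 1) (.add (.add (.c (-66715010086208)) (.mul (.v 0) (.add (.c (-186772727811536)) (.mul (.v 0) (.add (.c 1264615532456924) (.mul (.v 0) (.add (.c (-1360780308732668)) (.mul (.v 0) (.add (.c 392578269014032) (.mul (.v 0) (.add (.c 12644223702144) (.mul (.v 0) (.c (-4329611903232)))))))))))))) (.mul (.v 1) (.add (.c 419376076444024) (.mul (.v 0) (.add (.c 4529206513603344) (.mul (.v 0) (.add (.c 7031824051107328) (.mul (.v 0) (.add (.c (-12319088895715328)) (.mul (.v 0) (.add (.c (-31967591432960)) (.mul (.v 0) (.add (.c 1045347057910272) (.mul (.v 0) (.c (-28010825441280)))))))))))))))))))) (.mul (.v 2) (.mul (.v 2) (.add (.add (.add (.add (.c (-29822662350975770)) (.mul (.v 0) (.add (.c (-29006081269623428)) (.mul (.v 0) (.add (.c 85608192996234742) (.mul (.v 0) (.add (.c 50619740082736861) (.mul (.v 0) (.add (.c (-30860488061959586)) (.mul (.v 0) (.add (.c 11632784378397526)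 (.mul (.v 0) (.add (.c 1126677059063808) (.mul (.v 0) (.c 366457242184704))))))))))))))) (.mul (.v 1) (.add (.add (.c (-11275949512965122)) (.mul (.v 0) (.add (.c 4560532552911030) (.mul (.v 0) (.add (.c 190640366713151346) (.mul (.v 0) (.add (.c 60325845559506090) (.mul (.v 0) (.add (.c (-57289105282279644)) (.mul (.v 0) (.add (.c (-13498799998756136)) (.mul (.v 0) (.add (.c 2793513328626084) (.mul (.v 0) (.add (.c 38550536821272) (.mul (.v 0) (.c (-9088140)))))))))))))))))) (.mul (.v 1) (.add (.add (.c (-309112158948317742)) (.mul (.v 0) (.add (.c (-11673955490209658)) (.mul (.v 0) (.add (.c (-5295814472544537680)) (.mul (.v 0) (.add (.c 4320974468329359820) (.mul (.v 0) (.add (.c (-1182336424357504960)) (.mul (.v 0) (.add (.c 36633958017555072) (.mul (.v 0) (.c 37354210840946304))))))))))))) (.mul (.v 1) (.add (.c 88776285473717576) (.mul (.v 0) (.add (.c (-160538104744560544)) (.mul (.v 0) (.add (.c 1401437101103053744) (.mul (.v 0) (.add (.c (-962565343767194560)) (.mul (.v 0) (.add (.c 108866535572914944) (.mul (.v 0) (.c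 37315659072385152))))))))))))))))) (.mul (.v 3) (.add (.add (.add (.c (-26235954615039908)) (.mul (.v 0) (.add (.c 14364134380070396) (.mul (.v 0) (.add (.c 16724902318494998) (.mul (.v 0) (.add (.c (-51684970625759438)) (.mul (.v 0) (.add (.c (-1049995541831548)) (.mul (.v 0) (.add (.c 306902460256512) (.mul (.v 0) (.c 366457242184704))))))))))))) (.mul (.v 1) (.add (.add (.c 37716963058657986) (.mul (.v 0) (.add (.c 287233937939753318) (.mul (.v 0) (.add (.c (-127345065749840392)) (.mul (.v 0) (.add (.c (-112941856550847812)) (.mul (.v 0) (.add (.c (-8479073647122560)) (.mul (.v 0) (.add (.c 2133577205449728) (.mul (.v 0) (.c 38551768561152))))))))))))) (.mul (.v 1) (.add (.c 16931065171813376) (.mul (.v 0) (.add (.c (-197558401893231424)) (.mul (.v 0) (.add (.c 1401437101201975744) (.mul (.v 0) (.add (.c (-962565343767194560)) (.mul (.v 0) (.add (.c 108866535572914944) (.mul (.v 0) (.c 37315659072385152))))))))))))))) (.mul (.v 3) (.add (.c (-744907455793800)) (.mul (.v 0) (.c (-377866018926000)))))))) (.mul (.v 2) (.mul (.v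 2) (.add (.add (.c 126434278718004180) (.mul (.v 0) (.add (.c (-94545464436406320)) (.mul (.v 0) (.add (.c 24041174579080560) (.mul (.v 0) (.c 49687920))))))) (.mul (.v 1) (.add (.c (-71845104754992900)) (.mul (.v 0) (.add (.c (-37020290852784240)) (.mul (.v 0) (.c 122841960))))))))))))) (.mul (.v 4) (.add (.add (.mul (.v 3) (.mul (.v 3) (.add (.add (.c (-9589906087670)) (.mul (.v 0) (.add (.c 76987300120722) (.mul (.v 0) (.add (.c (-563880348270150)) (.mul (.v 0) (.add (.c 1391864538664034) (.mul (.v 0) (.add (.c (-2323241863109113)) (.mul (.v 0) (.add (.c 537478088870878) (.mul (.v 0) (.add (.c 97506227599104) (.mul (.v 0) (.c 194116961280))))))))))))))) (.mul (.v 1) (.add (.add (.c 279587437303684) (.mul (.v 0) (.add (.c 708037869989384) (.mul (.v 0) (.add (.c (-6142725152365580)) (.mul (.v 0) (.add (.c 9082492284241868) (.mul (.v 0) (.add (.c (-5038023260721556)) (.mul (.v 0) (.add (.c 835482537857280) (.mul (.v 0) (.add (.c (-16102735425408)) (.mul (.v 0) (.c 1546289965440))))))))))))))) (.mul (.v 1) (.add (.c (-1837505816913560))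 (.mul (.v 0) (.add (.c (-18361144193445872)) (.mul (.v 0) (.add (.c (-20316409446608704)) (.mul (.v 0) (.add (.c 39550160755038336) (.mul (.v 0) (.add (.c (-806579727404288)) (.mul (.v 0) (.add (.c (-3355440221610752)) (.mul (.v 0) (.c (-588481868536320)))))))))))))))))))) (.mul (.v 2) (.mul (.v 2) (.add (.add (.add (.add (.c 76011305488255546) (.mul (.v 0) (.add (.c 134841912920994028) (.mul (.v 0) (.add (.c (-290458720577441184)) (.mul (.v 0) (.add (.c (-120108259122525010)) (.mul (.v 0) (.add (.c 188203300314221230) (.mul (.v 0) (.add (.c (-95513321794656638)) (.mul (.v 0) (.add (.c 15541934722693056) (.mul (.v 0) (.c (-568076969733504)))))))))))))))) (.mul (.v 1) (.add (.add (.c 65035399470255840) (.mul (.v 0) (.add (.c (-87141924678992846)) (.mul (.v 0) (.add (.c (-505526919514432892)) (.mul (.v 0) (.add (.c (-65408316105722040)) (.mul (.v 0) (.add (.c 26815990503768860) (.mul (.v 0) (.add (.c 140839142880659584) (.mul (.v 0) (.add (.c (-31994791686589412)) (.mul (.v 0) (.add (.c (-1705455425411832)) (.mul (.v 0) (.c 598306320)))))))))))))))))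 (.mul (.v 1) (.add (.add (.c 292094972471011808) (.mul (.v 0) (.add (.c (-4768539215541483172)) (.mul (.v 0) (.add (.c 18170665174329635498) (.mul (.v 0) (.add (.c (-12690673179390354892)) (.mul (.v 0) (.add (.c 3036887752029276160) (.mul (.v 0) (.add (.c 64646608254019008) (.mul (.v 0) (.c (-125323362737950656)))))))))))))) (.mul (.v 1) (.add (.add (.c (-198602177672460800)) (.mul (.v 0) (.add (.c 310751480749685552) (.mul (.v 0) (.add (.c (-4152818298260503536)) (.mul (.v 0) (.add (.c 3123084271411630208) (.mul (.v 0) (.add (.c (-479437344110884736)) (.mul (.v 0) (.c (-123617873652491904)))))))))))) (.mul (.v 1) (.c 2782467957546000000))))))))) (.mul (.v 3) (.add (.add (.add (.c 92610099970628154) (.mul (.v 0) (.add (.c (-127425645829487954)) (.mul (.v 0) (.add (.c 54351982892319078) (.mul (.v 0) (.add (.c 191358144555385550) (.mul (.v 0) (.add (.c (-64261387192489092)) (.mul (.v 0) (.add (.c 21252324820412352) (.mul (.v 0) (.c (-568076969733504)))))))))))))) (.mul (.v 1) (.add (.add (.c (-107272489726256672)) (.mul (.v 0)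 (.add (.c (-832850305940886676)) (.mul (.v 0) (.add (.c 298474968757898786) (.mul (.v 0) (.add (.c 392862855457745060) (.mul (.v 0) (.add (.c 78381226407152512) (.mul (.v 0) (.add (.c (-35623542101746496)) (.mul (.v 0) (.c (-1705489085458752)))))))))))))) (.mul (.v 1) (.add (.c 140422288855164160) (.mul (.v 0) (.add (.c 537052708944277952) (.mul (.v 0) (.add (.c (-4141712210314565376)) (.mul (.v 0) (.add (.c 3123084271411630208) (.mul (.v 0) (.add (.c (-479437344110884736)) (.mul (.v 0) (.c (-123617873652491904)))))))))))))))) (.mul (.v 3) (.add (.c 524433476932200) (.mul (.v 0) (.add (.c 925890402013200) (.mul (.v 0) (.c 274811650128000))))))))) (.mul (.v 2) (.mul (.v 2) (.add (.add (.add (.add (.c 49308336948267480) (.mul (.v 0) (.add (.c 1373104591994766600) (.mul (.v 0) (.add (.c 598561072531549200) (.mul (.v 0) (.c (-7972592194446480)))))))) (.mul (.v 1) (.add (.add (.c 339023050403594640) (.mul (.v 0) (.add (.c 195384774171040200) (.mul (.v 0) (.c 11106086656503720))))) (.mul (.v 1) (.c (-1854978638364000000)))))) (.mul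 (.v 3) (.mul (.v 0) (.c (-30916310639400000))))) (.mul (.v 2) (.mul (.v 2) (.c (-927489319182000000))))))))))) (.mul (.v 4) (.add (.add (.mul (.v 3) (.mul (.v 3) (.add (.add (.c 18383290961994) (.mul (.v 0) (.add (.c (-212239876737098)) (.mul (.v 0) (.add (.c 1314667647510584) (.mul (.v 0) (.add (.c (-3039120267563350)) (.mul (.v 0) (.add (.c 8512069858931294) (.mul (.v 0) (.add (.c (-2628853192934719)) (.mul (.v 0) (.add (.c (-83943143821824)) (.mul (.v 0) (.c (-32513713737984)))))))))))))))) (.mul (.v 1) (.add (.add (.c (-687984942350200)) (.mul (.v 0) (.add (.c (-1556858532369356)) (.mul (.v 0) (.add (.c 16981719367022004) (.mul (.v 0) (.add (.c (-31159177771982840)) (.mul (.v 0) (.add (.c 23165061933660708) (.mul (.v 0) (.add (.c (-6484610526287616)) (.mul (.v 0) (.add (.c 489891925244928) (.mul (.v 0) (.c 5889605388288))))))))))))))) (.mul (.v 1) (.add (.c 4962216791928304) (.mul (.v 0) (.add (.c 44614911816225248) (.mul (.v 0) (.add (.c 44629190713497920) (.mul (.v 0) (.add (.c (-82765402634573776)) (.mul (.v 0) (.add (.c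 10051083441351936) (.mul (.v 0) (.add (.c 3331509712470400) (.mul (.v 0) (.c 2551884923392000))))))))))))))))))) (.mul (.v 2) (.mul (.v 2) (.add (.add (.add (.add (.c (-113237203272847584)) (.mul (.v 0) (.add (.c (-336095134653584132)) (.mul (.v 0) (.add (.c 645929518141897742) (.mul (.v 0) (.add (.c (-78543513964448098)) (.mul (.v 0) (.add (.c (-653783140430993032)) (.mul (.v 0) (.add (.c 443784182223177972) (.mul (.v 0) (.add (.c (-157859223783428480)) (.mul (.v 0) (.c 16282962739595520))))))))))))))) (.mul (.v 1) (.add (.add (.c (-167337804799574974)) (.mul (.v 0) (.add (.c 205680190508758456) (.mul (.v 0) (.add (.c 579996093219456310) (.mul (.v 0) (.add (.c (-437093599815729066)) (.mul (.v 0) (.add (.c 386993722394069284) (.mul (.v 0) (.add (.c (-485891687951320736)) (.mul (.v 0) (.add (.c 83931335155259020) (.mul (.v 0) (.add (.c 18635846824206880) (.mul (.v 0) (.c (-15673823040)))))))))))))))))) (.mul (.v 1) (.add (.add (.c 1719320649608647476) (.mul (.v 0) (.add (.c 23459542062342768038) (.mul (.v 0) (.add (.c (-26311581193865879110))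 (.mul (.v 0) (.add (.c 19295591725577840962) (.mul (.v 0) (.add (.c (-3984183877252329472)) (.mul (.v 0) (.add (.c (-127920227838232064)) (.mul (.v 0) (.c 92378519057732800))))))))))))) (.mul (.v 1) (.add (.add (.c 499451122176136568) (.mul (.v 0) (.add (.c 157693620875942272) (.mul (.v 0) (.add (.c 8074641706875591432) (.mul (.v 0) (.add (.c (-6466871557691934336)) (.mul (.v 0) (.add (.c 1555940126064220416) (.mul (.v 0) (.c 73742178512696640))))))))))) (.mul (.v 1) (.add (.c (-21012856240906800000)) (.mul (.v 0) (.c (-7048918825783200000)))))))))))) (.mul (.v 3) (.add (.add (.add (.c (-169409151859242502)) (.mul (.v 0) (.add (.c 336462084165226224) (.mul (.v 0) (.add (.c (-323473822437639068)) (.mul (.v 0) (.add (.c (-311078659525088056)) (.mul (.v 0) (.add (.c 199237832684807776) (.mul (.v 0) (.add (.c (-119660742478009600)) (.mul (.v 0) (.c 16282962739595520))))))))))))) (.mul (.v 1) (.add (.add (.c 175106636469921780) (.mul (.v 0) (.add (.c 1425029080457269638) (.mul (.v 0) (.add (.c (-379624275751405886)) (.mul (.v 0) (.add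 (.c (-755123518606986830)) (.mul (.v 0) (.add (.c (-263386706475870016)) (.mul (.v 0) (.add (.c 119525741779195840) (.mul (.v 0) (.c 18636340545036160))))))))))))) (.mul (.v 1) (.add (.c (-301611264974398912)) (.mul (.v 0) (.add (.c (-879692725126030208)) (.mul (.v 0) (.add (.c 7796520456425303232) (.mul (.v 0) (.add (.c (-6466871557691934336)) (.mul (.v 0) (.add (.c 1555940126064220416) (.mul (.v 0) (.c 73742178512696640))))))))))))))) (.mul (.v 3) (.add (.c 3097630424876400) (.mul (.v 0) (.add (.c 7813260013327200) (.mul (.v 0) (.add (.c 2526483491712000) (.mul (.v 0) (.c 103054368798000))))))))))) (.mul (.v 2) (.mul (.v 2) (.add (.add (.add (.add (.c (-805397395317476400)) (.mul (.v 0) (.add (.c (-3872859875717727600)) (.mul (.v 0) (.add (.c (-3591792300761298660)) (.mul (.v 0) (.c (-773367098814465840)))))))) (.mul (.v 1) (.add (.add (.c (-786624195671842380)) (.mul (.v 0) (.add (.c (-803908431542555040)) (.mul (.v 0) (.c (-199799902326567300)))))) (.mul (.v 1) (.add (.c 14008570827271200000) (.mul (.v 0) (.c 4699279217188800000)))))))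 (.mul (.v 3) (.add (.c 14427611631720000) (.mul (.v 0) (.add (.c 233476180454520000) (.mul (.v 0) (.c 78321320286480000))))))) (.mul (.v 2) (.mul (.v 2) (.add (.c 7004285413635600000) (.mul (.v 0) (.c 2349639608594400000)))))))))))) (.mul (.v 4) (.add (.add (.mul (.v 3) (.mul (.v 3) (.add (.add (.c (-2176943389808)) (.mul (.v 0) (.add (.c 519322179300520) (.mul (.v 0) (.add (.c (-2014103180062922)) (.mul (.v 0) (.add (.c 1972190351060394) (.mul (.v 0) (.add (.c (-19602423404988620)) (.mul (.v 0) (.add (.c 5274427023135140) (.mul (.v 0) (.add (.c (-125042943784416)) (.mul (.v 0) (.c 51815857421184))))))))))))))) (.mul (.v 1) (.add (.add (.c 1033893973550320) (.mul (.v 0) (.add (.c 2089790685718880) (.mul (.v 0) (.add (.c (-27933429029311492)) (.mul (.v 0) (.add (.c 59206907039574656) (.mul (.v 0) (.add (.c (-51633401631276076)) (.mul (.v 0) (.add (.c 18158980350578688) (.mul (.v 0) (.add (.c (-2005806307388928)) (.mul (.v 0) (.c (-5009578531968)))))))))))))))) (.mul (.v 1) (.add (.c (-9161332646850536)) (.mul (.v 0) (.add (.c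 (-74928392682108848)) (.mul (.v 0) (.add (.c (-78426309299913488)) (.mul (.v 0) (.add (.c 99184832346922224) (.mul (.v 0) (.add (.c (-20129799102735768)) (.mul (.v 0) (.add (.c (-1883548042021312)) (.mul (.v 0) (.c (-3681260725375680)))))))))))))))))))) (.mul (.v 2) (.mul (.v 2) (.add (.add (.add (.add (.c 90162245716818374) (.mul (.v 0) (.add (.c 491952207607276308) (.mul (.v 0) (.add (.c (-736131793244650392)) (.mul (.v 0) (.add (.c 818044776971102690) (.mul (.v 0) (.add (.c 1271034462471797822) (.mul (.v 0) (.add (.c (-952663168989952814)) (.mul (.v 0) (.add (.c 417324669355282224) (.mul (.v 0) (.c (-52134540966519360)))))))))))))))) (.mul (.v 1) (.add (.add (.c 219880637670259868) (.mul (.v 0) (.add (.c (-17711939594991956)) (.mul (.v 0) (.add (.c 296897313094138232) (.mul (.v 0) (.add (.c 1850940042924448598) (.mul (.v 0) (.add (.c (-964349881208544120)) (.mul (.v 0) (.add (.c 759207337409444568) (.mul (.v 0) (.add (.c (-68569981080500728)) (.mul (.v 0) (.add (.c (-52802381562210600)) (.mul (.v 0) (.c 216571494180)))))))))))))))))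 (.mul (.v 1) (.add (.add (.c (-6658579983167085358)) (.mul (.v 0) (.add (.c (-59458351423949426464)) (.mul (.v 0) (.add (.c (-4313900908302994996)) (.mul (.v 0) (.add (.c (-18529477980291774416)) (.mul (.v 0) (.add (.c 2382936156519934728) (.mul (.v 0) (.add (.c (-102304777830149760)) (.mul (.v 0) (.c 127204023056251584))))))))))))) (.mul (.v 1) (.add (.add (.c (-944532320853731456)) (.mul (.v 0) (.add (.c (-208134527869875568)) (.mul (.v 0) (.add (.c (-9701704877126694144)) (.mul (.v 0) (.add (.c 7132122856704555072) (.mul (.v 0) (.add (.c (-2447712455896109952)) (.mul (.v 0) (.c 180010868411178624))))))))))) (.mul (.v 1) (.add (.c 61418174583200400000) (.mul (.v 0) (.add (.c 46624959695121120000) (.mul (.v 0) (.c 5750433778928400000))))))))))))) (.mul (.v 3) (.add (.add (.add (.c 173933757817159526) (.mul (.v 0) (.add (.c (-349343774686721034)) (.mul (.v 0) (.add (.c 579382008691660174) (.mul (.v 0) (.add (.c (-99291559645702690)) (.mul (.v 0) (.add (.c (-325238854321342936)) (.mul (.v 0) (.add (.c 262905720721495824) (.mul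 (.v 0) (.c (-52134540966519360)))))))))))))) (.mul (.v 1) (.add (.add (.c (-171352781174805006)) (.mul (.v 0) (.add (.c (-1488284997003992800)) (.mul (.v 0) (.add (.c 133435697674138660) (.mul (.v 0) (.add (.c 795104157954368304) (.mul (.v 0) (.add (.c 410107977724694880) (.mul (.v 0) (.add (.c (-167964024948348928)) (.mul (.v 0) (.c (-52806845354927040)))))))))))))) (.mul (.v 1) (.add (.c (-71467599687462656)) (.mul (.v 0) (.add (.c (-166524115864651648)) (.mul (.v 0) (.add (.c (-9228452529013146624)) (.mul (.v 0) (.add (.c 7288765497277515072) (.mul (.v 0) (.add (.c (-2447712455896109952)) (.mul (.v 0) (.c 180010868411178624))))))))))))))) (.mul (.v 3) (.add (.c (-8642690057298600)) (.mul (.v 0) (.add (.c (-39426814696978800)) (.mul (.v 0) (.add (.c (-24558943436442000)) (.mul (.v 0) (.add (.c (-3144501594291600)) (.mul (.v 0) (.c (-188933009463000)))))))))))))) (.mul (.v 2) (.mul (.v 2) (.add (.add (.add (.add (.c 2221114844684120640) (.mul (.v 0) (.add (.c 6397898722641547680) (.mul (.v 0) (.add (.c (-1272793054125277920))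 (.mul (.v 0) (.add (.c 53618161063157280) (.mul (.v 0) (.c 390799342210149000))))))))) (.mul (.v 1) (.add (.add (.c 759468410429657520) (.mul (.v 0) (.add (.c (-669681752523132840)) (.mul (.v 0) (.add (.c (-44803077490887600)) (.mul (.v 0) (.c 92748931918200000))))))) (.mul (.v 1) (.add (.c (-40945449722133600000)) (.mul (.v 0) (.add (.c (-31083306463414080000)) (.mul (.v 0) (.c (-3833622519285600000)))))))))) (.mul (.v 3) (.add (.c (-113544168551352000)) (.mul (.v 0) (.add (.c (-711279385299000000)) (.mul (.v 0) (.add (.c (-518055107723568000)) (.mul (.v 0) (.c (-63893708654760000)))))))))) (.mul (.v 2) (.mul (.v 2) (.add (.c (-20472724861066800000)) (.mul (.v 0) (.add (.c (-15541653231707040000)) (.mul (.v 0) (.c (-1916811259642800000))))))))))))))) (.mul (.v 4) (.add (.add (.mul (.v 3) (.mul (.v 3) (.add (.add (.c (-99886525505456)) (.mul (.v 0) (.add (.c (-1330264168543640)) (.mul (.v 0) (.add (.c 3015602998984710) (.mul (.v 0) (.add (.c 6858908831922474) (.mul (.v 0) (.add (.c 30365357338267408) (.mul (.v 0) (.add (.c (-377139010650708))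 (.mul (.v 0) (.add (.c 440007102388832) (.mul (.v 0) (.c (-1432280954400)))))))))))))))) (.mul (.v 1) (.add (.add (.c (-941170981988556)) (.mul (.v 0) (.add (.c (-1722775816125384)) (.mul (.v 0) (.add (.c 27234449634945752) (.mul (.v 0) (.add (.c (-63503316141159524)) (.mul (.v 0) (.add (.c 60875971953625156) (.mul (.v 0) (.add (.c (-24258165415724608)) (.mul (.v 0) (.add (.c 3276676596781888) (.mul (.v 0) (.c (-33777370639680)))))))))))))))) (.mul (.v 1) (.add (.c 13235357168667200) (.mul (.v 0) (.add (.c 108752287143411712) (.mul (.v 0) (.add (.c 105262936143906736) (.mul (.v 0) (.add (.c (-54568636104120672)) (.mul (.v 0) (.add (.c 16401899209166536) (.mul (.v 0) (.add (.c 1495248293710144) (.mul (.v 0) (.c 2334843900114816))))))))))))))))))) (.mul (.v 2) (.mul (.v 2) (.add (.add (.add (.add (.c (-24164997185565508)) (.mul (.v 0) (.add (.c (-397469050294400668)) (.mul (.v 0) (.add (.c (-138760380195287238)) (.mul (.v 0) (.add (.c (-2083978004894812614)) (.mul (.v 0) (.add (.c (-1106397953518362316)) (.mul (.v 0) (.add (.c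 1255861724481207690) (.mul (.v 0) (.add (.c (-419219422611212304)) (.mul (.v 0) (.c 62436841568002848))))))))))))))) (.mul (.v 1) (.add (.add (.c (-122332013735083874)) (.mul (.v 0) (.add (.c (-799423027488458292)) (.mul (.v 0) (.add (.c (-2632023366271835306)) (.mul (.v 0) (.add (.c (-2993036888200949544)) (.mul (.v 0) (.add (.c 901586073398050908) (.mul (.v 0) (.add (.c (-567110730088998560)) (.mul (.v 0) (.add (.c 2169409485988516) (.mul (.v 0) (.add (.c 59574856161022944) (.mul (.v 0) (.c (-1813382209560)))))))))))))))))) (.mul (.v 1) (.add (.add (.c 12290736550271911706) (.mul (.v 0) (.add (.c 112270011327803951242) (.mul (.v 0) (.add (.c 65958767445290667556) (.mul (.v 0) (.add (.c 19666529859822573990) (.mul (.v 0) (.add (.c (-959558137285270488)) (.mul (.v 0) (.add (.c 289401148225881856) (.mul (.v 0) (.c (-191487408109198208)))))))))))))) (.mul (.v 1) (.add (.add (.c 2684087894290749944) (.mul (.v 0) (.add (.c (-4555797753692231552)) (.mul (.v 0) (.add (.c (-1323256417131876936)) (.mul (.v 0) (.add (.c (-4715471666673277056))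 (.mul (.v 0) (.add (.c 1734064134336828032) (.mul (.v 0) (.c (-251089201707921152)))))))))))) (.mul (.v 1) (.add (.c (-128706203785521600000)) (.mul (.v 0) (.add (.c (-33983354386749600000)) (.mul (.v 0) (.add (.c 6382170316270800000) (.mul (.v 0) (.c (-1483982910691200000)))))))))))))))) (.mul (.v 3) (.add (.add (.add (.c (-108664540375452286)) (.mul (.v 0) (.add (.c (-98218267556499238)) (.mul (.v 0) (.add (.c (-459779110556847846)) (.mul (.v 0) (.add (.c 1565931668931448076) (.mul (.v 0) (.add (.c 1169456684062227940) (.mul (.v 0) (.add (.c (-193801608495403824)) (.mul (.v 0) (.c 61455763977045888))))))))))))) (.mul (.v 1) (.add (.add (.c 95205271196405386) (.mul (.v 0) (.add (.c 1032814270207546282) (.mul (.v 0) (.add (.c 449824025144279876) (.mul (.v 0) (.add (.c (-162825669281768426)) (.mul (.v 0) (.add (.c (-307698359633340000)) (.mul (.v 0) (.add (.c 121463632453253440) (.mul (.v 0) (.c 59601793598722944))))))))))))) (.mul (.v 1) (.add (.c 1133967016786174784) (.mul (.v 0) (.add (.c 4092134890858765888) (.mul (.v 0) (.add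 (.c 4695525508088922624) (.mul (.v 0) (.add (.c (-4248758576193757056)) (.mul (.v 0) (.add (.c 1701086736321468032) (.mul (.v 0) (.c (-251089201707921152)))))))))))))))) (.mul (.v 3) (.add (.c 13100683990104000) (.mul (.v 0) (.add (.c 91991929884307200) (.mul (.v 0) (.add (.c 67462580304126000) (.mul (.v 0) (.add (.c 14160641419116000) (.mul (.v 0) (.add (.c 34362557829000) (.mul (.v 0) (.c 54962330025600))))))))))))))) (.mul (.v 2) (.mul (.v 2) (.add (.add (.add (.add (.c (-4445969972710953540)) (.mul (.v 0) (.add (.c (-10536533057616351840)) (.mul (.v 0) (.add (.c 38865638552274808080) (.mul (.v 0) (.add (.c 25406509257840878640) (.mul (.v 0) (.add (.c 1618114298399793000) (.mul (.v 0) (.c (-70736518742947200)))))))))))) (.mul (.v 1) (.add (.add (.c (-1147027465935790380)) (.mul (.v 0) (.add (.c 10320596435818317120) (.mul (.v 0) (.add (.c 6410804562754343220) (.mul (.v 0) (.add (.c 395800086965400000) (.mul (.v 0) (.c (-16488699007680000)))))))))) (.mul (.v 1) (.add (.c 85804135857014400000) (.mul (.v 0) (.add (.c 22655569591166400000)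 (.mul (.v 0) (.add (.c (-4254780210847200000)) (.mul (.v 0) (.c 989321940460800000))))))))))) (.mul (.v 3) (.add (.c 402915549614760000) (.mul (.v 0) (.add (.c 1672601693610960000) (.mul (.v 0) (.add (.c 392020438151160000) (.mul (.v 0) (.add (.c (-70913003514120000)) (.mul (.v 0) (.c 16488699007680000))))))))))) (.mul (.v 2) (.mul (.v 2) (.add (.c 42902067928507200000) (.mul (.v 0) (.add (.c 11327784795583200000) (.mul (.v 0) (.add (.c (-2127390105423600000)) (.mul (.v 0) (.c 494660970230400000)))))))))))))))) (.mul (.v 4) (.add (.add (.mul (.v 3) (.mul (.v 3) (.add (.add (.c 372704416250270) (.mul (.v 0) (.add (.c 2913676532593444) (.mul (.v 0) (.add (.c (-5464510766521118)) (.mul (.v 0) (.add (.c (-24552737193426496)) (.mul (.v 0) (.add (.c (-39411415932368480)) (.mul (.v 0) (.add (.c (-13795822412220480)) (.mul (.v 0) (.add (.c (-3011712145041248)) (.mul (.v 0) (.c (-93246394314464)))))))))))))))) (.mul (.v 1) (.add (.add (.c 487882135182580) (.mul (.v 0) (.add (.c 832858719349284) (.mul (.v 0) (.add (.c (-14831380062038608))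 (.mul (.v 0) (.add (.c 36632297685953552) (.mul (.v 0) (.add (.c (-36952452017848976)) (.mul (.v 0) (.add (.c 15648721007866368) (.mul (.v 0) (.add (.c (-2330691711512576)) (.mul (.v 0) (.c 48312284595584))))))))))))))) (.mul (.v 1) (.add (.c (-18199269031067216)) (.mul (.v 0) (.add (.c (-161217145680784896)) (.mul (.v 0) (.add (.c (-110290135658102992)) (.mul (.v 0) (.add (.c 2635949282804080) (.mul (.v 0) (.add (.c (-26617537952280)) (.mul (.v 0) (.add (.c (-340711682657984)) (.mul (.v 0) (.c (-648035223871040)))))))))))))))))))) (.mul (.v 2) (.mul (.v 2) (.add (.add (.add (.add (.c (-38933695212860458)) (.mul (.v 0) (.add (.c 168841580861015822) (.mul (.v 0) (.add (.c 1963838210570666712) (.mul (.v 0) (.add (.c 3710373115408374268) (.mul (.v 0) (.add (.c (-468486446946226750)) (.mul (.v 0) (.add (.c (-1735826948214104054)) (.mul (.v 0) (.add (.c (-219347303648163856)) (.mul (.v 0) (.c (-45242694273836064)))))))))))))))) (.mul (.v 1) (.add (.add (.c (-69411784175489638)) (.mul (.v 0) (.add (.c 2174433206952666560) (.mul (.v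 0) (.add (.c 6065623062703303092) (.mul (.v 0) (.add (.c 2403549721907934584) (.mul (.v 0) (.add (.c (-661794051216635612)) (.mul (.v 0) (.add (.c (-108309046746046024)) (.mul (.v 0) (.add (.c (-1970151546293300)) (.mul (.v 0) (.add (.c (-27460967680101440)) (.mul (.v 0) (.c 9964443654240))))))))))))))))) (.mul (.v 1) (.add (.add (.c (-16448130073017605542)) (.mul (.v 0) (.add (.c (-189345339766980431820)) (.mul (.v 0) (.add (.c (-105899374948508905362)) (.mul (.v 0) (.add (.c (-13339417872425196760)) (.mul (.v 0) (.add (.c 9947129302871648776) (.mul (.v 0) (.add (.c 501261339035259840) (.mul (.v 0) (.c 58864200295710784))))))))))))) (.mul (.v 1) (.add (.add (.c (-8319434161759856576)) (.mul (.v 0) (.add (.c 15125554646029373840) (.mul (.v 0) (.add (.c 36846943853533947648) (.mul (.v 0) (.add (.c 15767555947581804864) (.mul (.v 0) (.add (.c 232294276319967744) (.mul (.v 0) (.c 86439127900212864))))))))))) (.mul (.v 1) (.add (.c 315451817685745200000) (.mul (.v 0) (.add (.c (-320798974259272320000)) (.mul (.v 0) (.add (.c (-222736849165419120000))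 (.mul (.v 0) (.c (-10872160160342400000)))))))))))))))) (.mul (.v 3) (.add (.add (.add (.c 74728932750509912) (.mul (.v 0) (.add (.c 933832528876127850) (.mul (.v 0) (.add (.c (-79099736640729838)) (.mul (.v 0) (.add (.c (-4640184538669039310)) (.mul (.v 0) (.add (.c (-3408165998374528452)) (.mul (.v 0) (.add (.c (-661424819117842224)) (.mul (.v 0) (.c (-52430400157617984)))))))))))))) (.mul (.v 1) (.add (.add (.c 1146225313247202) (.mul (.v 0) (.add (.c (-719924057657053292)) (.mul (.v 0) (.add (.c (-1288130840973756266)) (.mul (.v 0) (.add (.c (-870479761889324056)) (.mul (.v 0) (.add (.c (-110438294720649440)) (.mul (.v 0) (.add (.c (-54313652274420288)) (.mul (.v 0) (.c (-27574927604502080)))))))))))))) (.mul (.v 1) (.add (.c (-3344701862628313856)) (.mul (.v 0) (.add (.c (-11497619435159033920)) (.mul (.v 0) (.add (.c 10585108857846633408) (.mul (.v 0) (.add (.c 8135871632459916864) (.mul (.v 0) (.add (.c (-9309282798752256)) (.mul (.v 0) (.c 86439127900212864))))))))))))))) (.mul (.v 3) (.add (.c (-18088536073122000)) (.mul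 (.v 0) (.add (.c (-157902224856696000)) (.mul (.v 0) (.add (.c (-98451311619718800)) (.mul (.v 0) (.add (.c (-18987471244904400)) (.mul (.v 0) (.add (.c 6014532468810600) (.mul (.v 0) (.c 402672598531200))))))))))))))) (.mul (.v 2) (.mul (.v 2) (.add (.add (.add (.add (.c 10335338127472459920) (.mul (.v 0) (.add (.c 15485985952303874760) (.mul (.v 0) (.add (.c (-125844456157231872840)) (.mul (.v 0) (.add (.c (-92296672663560032160)) (.mul (.v 0) (.add (.c (-21463483331664876600)) (.mul (.v 0) (.c (-518239634309654400)))))))))))) (.mul (.v 1) (.add (.add (.c 3857729956298796240) (.mul (.v 0) (.add (.c (-30477258864965687880)) (.mul (.v 0) (.add (.c (-22591710346718726640)) (.mul (.v 0) (.add (.c (-5156830435506120000)) (.mul (.v 0) (.c (-120801779559360000)))))))))) (.mul (.v 1) (.add (.c (-210301211790496800000)) (.mul (.v 0) (.add (.c 213865982839514880000) (.mul (.v 0) (.add (.c 148491232776946080000) (.mul (.v 0) (.c 7248106773561600000))))))))))) (.mul (.v 3) (.add (.c (-1116570147301728000)) (.mul (.v 0) (.add (.c (-3853876072991688000))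 (.mul (.v 0) (.add (.c 3670134604439688000) (.mul (.v 0) (.add (.c 2474853879615768000) (.mul (.v 0) (.c 120801779559360000))))))))))) (.mul (.v 2) (.mul (.v 2) (.add (.c (-105150605895248400000)) (.mul (.v 0) (.add (.c 106932991419757440000) (.mul (.v 0) (.add (.c 74245616388473040000) (.mul (.v 0) (.c 3624053386780800000)))))))))))))))) (.mul (.v 4) (.add (.add (.mul (.v 3) (.mul (.v 3) (.add (.add (.c (-872154159536742)) (.mul (.v 0) (.add (.c (-4527088928349478)) (.mul (.v 0) (.add (.c 8932351182471124) (.mul (.v 0) (.add (.c 43707863481886118) (.mul (.v 0) (.add (.c 57629564964706588) (.mul (.v 0) (.add (.c 27705667381488512) (.mul (.v 0) (.add (.c 8173325599887936) (.mul (.v 0) (.c 600449856198624))))))))))))))) (.mul (.v 1) (.add (.add (.c (-121731427689588)) (.mul (.v 0) (.add (.c (-208663371073656)) (.mul (.v 0) (.add (.c 3789701843772788) (.mul (.v 0) (.add (.c (-9442196709639432)) (.mul (.v 0) (.add (.c 9422528108464048) (.mul (.v 0) (.add (.c (-3819020194309632)) (.mul (.v 0) (.add (.c 516713820367488) (.mul (.v 0)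 (.c (-13256614994304)))))))))))))))) (.mul (.v 1) (.add (.c 27091411060654368) (.mul (.v 0) (.add (.c 210521547403696304) (.mul (.v 0) (.add (.c 132558540226024384) (.mul (.v 0) (.add (.c (-18059477421868096)) (.mul (.v 0) (.add (.c (-21513833565337504)) (.mul (.v 0) (.add (.c (-3842760693552448)) (.mul (.v 0) (.c 59397926081664))))))))))))))))))) (.mul (.v 2) (.mul (.v 2) (.add (.add (.add (.add (.c 114351282910673442) (.mul (.v 0) (.add (.c (-140825475881564468)) (.mul (.v 0) (.add (.c (-4154592702096317342)) (.mul (.v 0) (.add (.c (-4792537226521633326)) (.mul (.v 0) (.add (.c 2436175636753697370) (.mul (.v 0) (.add (.c 3179325034815937910) (.mul (.v 0) (.add (.c 1221597309760790016) (.mul (.v 0) (.c 127670008279208736))))))))))))))) (.mul (.v 1) (.add (.add (.c 182519276401533990) (.mul (.v 0) (.add (.c (-3897835347565151742)) (.mul (.v 0) (.add (.c (-8517035951382501566)) (.mul (.v 0) (.add (.c (-1746268272878392876)) (.mul (.v 0) (.add (.c 1802033309098551552) (.mul (.v 0) (.add (.c 993295863392259152) (.mul (.v 0) (.add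 (.c 128681653907097632) (.mul (.v 0) (.add (.c 3347687581075176) (.mul (.v 0) (.c (-37724146975560)))))))))))))))))) (.mul (.v 1) (.add (.add (.c 20739424197529139508) (.mul (.v 0) (.add (.c 262874429568505488736) (.mul (.v 0) (.add (.c 146618422899611865226) (.mul (.v 0) (.add (.c (-37377942733530124578)) (.mul (.v 0) (.add (.c (-34480165916885621984)) (.mul (.v 0) (.add (.c (-5484246613432028992)) (.mul (.v 0) (.c (-523380333281600)))))))))))))) (.mul (.v 1) (.add (.add (.c 20184075165830748240) (.mul (.v 0) (.add (.c (-29061276152640789952)) (.mul (.v 0) (.add (.c (-102048526218241525000)) (.mul (.v 0) (.add (.c (-47578911070393707584)) (.mul (.v 0) (.add (.c (-5915205229421076160)) (.mul (.v 0) (.c (-4219532197985216)))))))))))) (.mul (.v 1) (.add (.c (-747805335783494400000)) (.mul (.v 0) (.add (.c 1258021275590495520000) (.mul (.v 0) (.add (.c 742509053921517120000) (.mul (.v 0) (.c 106755946427088000000))))))))))))))) (.mul (.v 3) (.add (.add (.add (.c (-182641693950377106)) (.mul (.v 0) (.add (.c (-2031469676779554654))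 (.mul (.v 0) (.add (.c 1296373109817124646) (.mul (.v 0) (.add (.c 9372146249280482806) (.mul (.v 0) (.add (.c 6530484699635184276) (.mul (.v 0) (.add (.c 2203275748276831104) (.mul (.v 0) (.c 198247550639339136))))))))))))) (.mul (.v 1) (.add (.add (.c (-112128514973065572)) (.mul (.v 0) (.add (.c 777959259425967984) (.mul (.v 0) (.add (.c 2441936731038159610) (.mul (.v 0) (.add (.c 1887931347260303086) (.mul (.v 0) (.add (.c 660930419020303296) (.mul (.v 0) (.add (.c 71266842628621376) (.mul (.v 0) (.c 3696151864703616))))))))))))) (.mul (.v 1) (.add (.c 9192790525933224000) (.mul (.v 0) (.add (.c 20995861696499912768) (.mul (.v 0) (.add (.c (-45037689537365342080)) (.mul (.v 0) (.add (.c (-24776521367005419584)) (.mul (.v 0) (.add (.c (-3542850864374676160)) (.mul (.v 0) (.c (-4219532197985216)))))))))))))))) (.mul (.v 3) (.add (.c 27081680255992800) (.mul (.v 0) (.add (.c 210335068993143600) (.mul (.v 0) (.add (.c 131772051532036800) (.mul (.v 0) (.add (.c (-16138598406321600)) (.mul (.v 0) (.add (.c (-22248511576149600))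 (.mul (.v 0) (.c (-3953923941744000)))))))))))))))) (.mul (.v 2) (.mul (.v 2) (.add (.add (.add (.add (.c (-23807263806434360520)) (.mul (.v 0) (.add (.c (-11201049838442548800)) (.mul (.v 0) (.add (.c 252945893022045057660) (.mul (.v 0) (.add (.c 179145482610066722640) (.mul (.v 0) (.add (.c 60880032249765069600) (.mul (.v 0) (.c 5088700113024528000))))))))))) (.mul (.v 1) (.add (.add (.c (-7926261722572519080)) (.mul (.v 0) (.add (.c 57056049034688100960) (.mul (.v 0) (.add (.c 41994948321772222260) (.mul (.v 0) (.add (.c 14552289104260320000) (.mul (.v 0) (.c 1186177182523200000))))))))) (.mul (.v 1) (.add (.c 498536890522329600000) (.mul (.v 0) (.add (.c (-838680850393663680000)) (.mul (.v 0) (.add (.c (-495006035947678080000)) (.mul (.v 0) (.c (-71170630951392000000)))))))))))) (.mul (.v 3) (.add (.c 3064263508644408000) (.mul (.v 0) (.add (.c 6998411874696768000) (.mul (.v 0) (.add (.c (-15015919207935528000)) (.mul (.v 0) (.add (.c (-8250100599127968000)) (.mul (.v 0) (.c (-1186177182523200000)))))))))))) (.mul (.v 2)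 (.mul (.v 2) (.add (.c 249268445261164800000) (.mul (.v 0) (.add (.c (-419340425196831840000)) (.mul (.v 0) (.add (.c (-247503017973839040000)) (.mul (.v 0) (.c (-35585315475696000000))))))))))))))))) (.mul (.v 4) (.add (.add (.mul (.v 3) (.mul (.v 3) (.add (.add (.c 1493834945970710) (.mul (.v 0) (.add (.c 4626450435245722) (.mul (.v 0) (.add (.c (-10932242713810510)) (.mul (.v 0) (.add (.c (-54312018250034080)) (.mul (.v 0) (.add (.c (-84654989285054178)) (.mul (.v 0) (.add (.c (-44235360529312788)) (.mul (.v 0) (.add (.c (-11744743052348832)) (.mul (.v 0) (.c (-1516119943464576)))))))))))))))) (.mul (.v 1) (.add (.add (.c 8577192820280) (.mul (.v 0) (.add (.c 21654652181408) (.mul (.v 0) (.add (.c (-234078021797480)) (.mul (.v 0) (.add (.c 432375506880348) (.mul (.v 0) (.add (.c (-173369554965264)) (.mul (.v 0) (.add (.c (-149759780274048)) (.mul (.v 0) (.add (.c 89875224678656) (.mul (.v 0) (.c (-4447765575168)))))))))))))))) (.mul (.v 1) (.add (.c (-40225678081142400)) (.mul (.v 0) (.add (.c (-189561027182558400)) (.mul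 (.v 0) (.add (.c (-201177899026830000)) (.mul (.v 0) (.add (.c 72523926480715200) (.mul (.v 0) (.add (.c 44057355408891000) (.mul (.v 0) (.c 10102586789030400))))))))))))))))) (.mul (.v 2) (.mul (.v 2) (.add (.add (.add (.add (.c (-206264552343502882)) (.mul (.v 0) (.add (.c 434533563357898812) (.mul (.v 0) (.add (.c 5824562136894521156) (.mul (.v 0) (.add (.c 4498491695667442704) (.mul (.v 0) (.add (.c (-3205295941461641946)) (.mul (.v 0) (.add (.c (-5774454768786267652)) (.mul (.v 0) (.add (.c (-1961486865658868400)) (.mul (.v 0) (.c (-314022072692361600)))))))))))))))) (.mul (.v 1) (.add (.add (.c (-25238211575085656)) (.mul (.v 0) (.add (.c 5226295005500835534) (.mul (.v 0) (.add (.c 7924723546175358138) (.mul (.v 0) (.add (.c 3128344586040456356) (.mul (.v 0) (.add (.c (-4110225382556431432)) (.mul (.v 0) (.add (.c (-1754311380128024760)) (.mul (.v 0) (.add (.c (-330426686704559580)) (.mul (.v 0) (.add (.c 783893456207640) (.mul (.v 0) (.c 101332015233780))))))))))))))))) (.mul (.v 1) (.add (.add (.c (-27665443310969042340))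 (.mul (.v 0) (.add (.c (-255187242589314155004)) (.mul (.v 0) (.add (.c (-236547680524596814590)) (.mul (.v 0) (.add (.c 114896395560746725992) (.mul (.v 0) (.add (.c 65008630512882711000) (.mul (.v 0) (.c 14032493049963225600))))))))))) (.mul (.v 1) (.add (.add (.c (-37227156880283857680)) (.mul (.v 0) (.add (.c 43138324995314944800) (.mul (.v 0) (.add (.c 195803568584971093440) (.mul (.v 0) (.add (.c 81225742517482680000) (.mul (.v 0) (.c 15153880183545600000))))))))) (.mul (.v 1) (.add (.c 1325943487744848000000) (.mul (.v 0) (.add (.c (-2619899809941680640000)) (.mul (.v 0) (.add (.c (-1340945690081518800000)) (.mul (.v 0) (.c (-272769843303820800000)))))))))))))))) (.mul (.v 3) (.add (.add (.add (.c 515233833326048206) (.mul (.v 0) (.add (.c 2927592544778032794) (.mul (.v 0) (.add (.c (-3226081998716574780)) (.mul (.v 0) (.add (.c (-13688655552341327314)) (.mul (.v 0) (.add (.c (-11097892251806840392)) (.mul (.v 0) (.add (.c (-3359573610634342800)) (.mul (.v 0) (.c (-494353246876554240)))))))))))))) (.mul (.v 1) (.add (.add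 (.c 232522705329107700) (.mul (.v 0) (.add (.c (-807706945589713404)) (.mul (.v 0) (.add (.c (-3619834364303986230)) (.mul (.v 0) (.add (.c (-3212038260552814488)) (.mul (.v 0) (.add (.c (-1041355673301060000)) (.mul (.v 0) (.c (-161641388624486400)))))))))))) (.mul (.v 1) (.add (.c (-21037402432867968000)) (.mul (.v 0) (.add (.c (-24011837052633360000)) (.mul (.v 0) (.add (.c 95285780761084128000) (.mul (.v 0) (.add (.c 44698189669383960000) (.mul (.v 0) (.c 9092328110127360000))))))))))))) (.mul (.v 3) (.add (.c (-40225678081142400)) (.mul (.v 0) (.add (.c (-189561027182558400)) (.mul (.v 0) (.add (.c (-201177899026830000)) (.mul (.v 0) (.add (.c 72523926480715200) (.mul (.v 0) (.add (.c 44057355408891000) (.mul (.v 0) (.c 10102586789030400))))))))))))))) (.mul (.v 2) (.mul (.v 2) (.add (.add (.add (.add (.c 41853091078830475440) (.mul (.v 0) (.add (.c (-14733896515187338560)) (.mul (.v 0) (.add (.c (-356899785533636784720)) (.mul (.v 0) (.add (.c (-301291907674958570880)) (.mul (.v 0) (.add (.c (-91130637056226993000)) (.mul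 (.v 0) (.c (-13002029197482124800)))))))))))) (.mul (.v 1) (.add (.add (.c 9176319154056728760) (.mul (.v 0) (.add (.c (-75154970687059779600)) (.mul (.v 0) (.add (.c (-68755928018845201200)) (.mul (.v 0) (.add (.c (-21628156291637400000)) (.mul (.v 0) (.c (-3030776036709120000)))))))))) (.mul (.v 1) (.add (.c (-883962325163232000000)) (.mul (.v 0) (.add (.c 1746599873294453760000) (.mul (.v 0) (.add (.c 893963793387679200000) (.mul (.v 0) (.c 181846562202547200000))))))))))) (.mul (.v 3) (.add (.c (-7012467477622656000)) (.mul (.v 0) (.add (.c (-8003945684211120000)) (.mul (.v 0) (.add (.c 31761926920361376000) (.mul (.v 0) (.add (.c 14899396556461320000) (.mul (.v 0) (.c 3030776036709120000))))))))))) (.mul (.v 2) (.mul (.v 2) (.add (.c (-441981162581616000000)) (.mul (.v 0) (.add (.c 873299936647226880000) (.mul (.v 0) (.add (.c 446981896693839600000) (.mul (.v 0) (.c 90923281101273600000)))))))))))))))) (.mul (.v 4) (.add (.add (.mul (.v 3) (.mul (.v 3) (.add (.add (.c (-1897447647931942)) (.mul (.v 0) (.add (.c (-2902740229008484))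 (.mul (.v 0) (.add (.c 10444338694824688) (.mul (.v 0) (.add (.c 52548425113256464) (.mul (.v 0) (.add (.c 96350386531716516) (.mul (.v 0) (.add (.c 69592654617533026) (.mul (.v 0) (.add (.c 16259776453810112) (.mul (.v 0) (.c 1922624768997216))))))))))))))) (.mul (.v 1) (.add (.add (.c (-386342399676)) (.mul (.v 0) (.add (.c (-2487407433080)) (.mul (.v 0) (.add (.c (-3727702578020)) (.mul (.v 0) (.add (.c 22200153003240) (.mul (.v 0) (.add (.c (-58406052857384)) (.mul (.v 0) (.add (.c 51984454296768) (.mul (.v 0) (.add (.c (-16214694550656)) (.mul (.v 0) (.c 741294262528))))))))))))))) (.mul (.v 1) (.add (.c 50827155018759000) (.mul (.v 0) (.add (.c 92126822903740800) (.mul (.v 0) (.add (.c 211014228879936000) (.mul (.v 0) (.add (.c (-78527837275254000)) (.mul (.v 0) (.add (.c (-75169055521584000)) (.mul (.v 0) (.c (-12816685209859200)))))))))))))))))) (.mul (.v 2) (.mul (.v 2) (.add (.add (.add (.add (.c 258045826127046920) (.mul (.v 0) (.add (.c (-901400851888944740)) (.mul (.v 0) (.add (.c (-5706574753045363328)) (.mul (.v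 0) (.add (.c (-3543135739105902236)) (.mul (.v 0) (.add (.c 2885080674181274598) (.mul (.v 0) (.add (.c 8482346932461522566) (.mul (.v 0) (.add (.c 2910717150633542400) (.mul (.v 0) (.c 398385298606456800))))))))))))))) (.mul (.v 1) (.add (.add (.c (-428354300114321486)) (.mul (.v 0) (.add (.c (-4895759714628922306)) (.mul (.v 0) (.add (.c (-5107322862103532806)) (.mul (.v 0) (.add (.c (-4044278317311986610)) (.mul (.v 0) (.add (.c 5482111790368698264) (.mul (.v 0) (.add (.c 2768738470285994280) (.mul (.v 0) (.add (.c 418741863609286500) (.mul (.v 0) (.add (.c (-1306962666565320)) (.mul (.v 0) (.c (-196127409990600)))))))))))))))))) (.mul (.v 1) (.add (.add (.c 34962869150528428080) (.mul (.v 0) (.add (.c 150256768678870560246) (.mul (.v 0) (.add (.c 272966994737525855868) (.mul (.v 0) (.add (.c (-138576374796915610620)) (.mul (.v 0) (.add (.c (-108107981266027248000)) (.mul (.v 0) (.c (-17802375756494428800)))))))))))) (.mul (.v 1) (.add (.add (.c 51704105863814312280) (.mul (.v 0) (.add (.c (-50810074020535397280)) (.mul (.v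 0) (.add (.c (-280457427904295069040)) (.mul (.v 0) (.add (.c (-127437466364254080000)) (.mul (.v 0) (.c (-19225027814788800000)))))))))) (.mul (.v 1) (.add (.c (-1673460218374315200000)) (.mul (.v 0) (.add (.c 3611855692126483200000) (.mul (.v 0) (.add (.c 2176403329901548800000) (.mul (.v 0) (.c 346050500666198400000))))))))))))))) (.mul (.v 3) (.add (.add (.add (.c (-981396840498316028)) (.mul (.v 0) (.add (.c (-2768864793295561822)) (.mul (.v 0) (.add (.c 4638955496630669690) (.mul (.v 0) (.add (.c 14966898186009107970) (.mul (.v 0) (.add (.c 16846106841750426048) (.mul (.v 0) (.add (.c 4845731796452409600) (.mul (.v 0) (.c 627163129602443520))))))))))))) (.mul (.v 1) (.add (.add (.c (-293005502903101560)) (.mul (.v 0) (.add (.c 573885439668765126) (.mul (.v 0) (.add (.c 3939008153442196068) (.mul (.v 0) (.add (.c 4877112332720247780) (.mul (.v 0) (.add (.c 1529013401275968000) (.mul (.v 0) (.c 205066963357747200))))))))))) (.mul (.v 1) (.add (.c 35148522019947840000) (.mul (.v 0) (.add (.c 10658430676029600000) (.mul (.v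 0) (.add (.c (-130488329340313560000)) (.mul (.v 0) (.add (.c (-72546777663384960000)) (.mul (.v 0) (.c (-11535016688873280000)))))))))))))) (.mul (.v 3) (.add (.c 50827155018759000) (.mul (.v 0) (.add (.c 92126822903740800) (.mul (.v 0) (.add (.c 211014228879936000) (.mul (.v 0) (.add (.c (-78527837275254000)) (.mul (.v 0) (.add (.c (-75169055521584000)) (.mul (.v 0) (.c (-12816685209859200)))))))))))))))) (.mul (.v 2) (.mul (.v 2) (.add (.add (.add (.add (.c (-52804151088433672980)) (.mul (.v 0) (.add (.c 53198242664432984640) (.mul (.v 0) (.add (.c 363520678751539743000) (.mul (.v 0) (.add (.c 460447053275462846400) (.mul (.v 0) (.add (.c 130134812279512464000) (.mul (.v 0) (.c 16495073865088790400))))))))))) (.mul (.v 1) (.add (.add (.c (-4838523620404765260)) (.mul (.v 0) (.add (.c 65022395505272213040) (.mul (.v 0) (.add (.c 106473092330096746680) (.mul (.v 0) (.add (.c 30708429479740800000) (.mul (.v 0) (.c 3845005562957760000))))))))) (.mul (.v 1) (.add (.c 1115640145582876800000) (.mul (.v 0) (.add (.c (-2407903794750988800000))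 (.mul (.v 0) (.add (.c (-1450935553267699200000)) (.mul (.v 0) (.c (-230700333777465600000)))))))))))) (.mul (.v 3) (.add (.c 11716174006649280000) (.mul (.v 0) (.add (.c 3552810225343200000) (.mul (.v 0) (.add (.c (-43496109780104520000)) (.mul (.v 0) (.add (.c (-24182259221128320000)) (.mul (.v 0) (.c (-3845005562957760000)))))))))))) (.mul (.v 2) (.mul (.v 2) (.add (.c 557820072791438400000) (.mul (.v 0) (.add (.c (-1203951897375494400000)) (.mul (.v 0) (.add (.c (-725467776633849600000)) (.mul (.v 0) (.c (-115350166888732800000))))))))))))))))) (.mul (.v 4) (.add (.add (.mul (.v 3) (.mul (.v 3) (.add (.add (.c 1752417863950536) (.mul (.v 0) (.add (.c 932703199229290) (.mul (.v 0) (.add (.c (-8857462061986474)) (.mul (.v 0) (.add (.c (-41016082980749600)) (.mul (.v 0) (.add (.c (-78930247008274292)) (.mul (.v 0) (.add (.c (-82554191260501388)) (.mul (.v 0) (.add (.c (-27119581020000000)) (.mul (.v 0) (.c (-2351192756313600)))))))))))))))) (.mul (.v 1) (.add (.add (.c 129547806448) (.mul (.v 0) (.add (.c 835402224776) (.mul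 (.v 0) (.add (.c 1321200817148) (.mul (.v 0) (.add (.c 1254629984440) (.mul (.v 0) (.c 608059037956))))))))) (.mul (.v 1) (.add (.c (-48746025032266800)) (.mul (.v 0) (.add (.c (-3747449640034800)) (.mul (.v 0) (.add (.c (-74613991592160000)) (.mul (.v 0) (.add (.c 43110916137489600) (.mul (.v 0) (.add (.c 115095531393864000) (.mul (.v 0) (.c 15674618375424000))))))))))))))))) (.mul (.v 2) (.mul (.v 2) (.add (.add (.add (.add (.c (-227884373510513984)) (.mul (.v 0) (.add (.c 1211661752160737730) (.mul (.v 0) (.add (.c 3709916248632630604) (.mul (.v 0) (.add (.c 2549534204421773836) (.mul (.v 0) (.add (.c (-2746083911618046194)) (.mul (.v 0) (.add (.c (-9078713694544201442)) (.mul (.v 0) (.add (.c (-4712698532123164800)) (.mul (.v 0) (.c (-487219387836096000)))))))))))))))) (.mul (.v 1) (.add (.add (.c 874173213882734874) (.mul (.v 0) (.add (.c 2851980232835393424) (.mul (.v 0) (.add (.c 2305285792902145032) (.mul (.v 0) (.add (.c 1440782298648520426) (.mul (.v 0) (.add (.c (-5012750648060030084)) (.mul (.v 0) (.add (.c (-4374234165581983560))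 (.mul (.v 0) (.add (.c (-512557170886865640)) (.mul (.v 0) (.add (.c 1611294070091280) (.mul (.v 0) (.c 274474406408520))))))))))))))))) (.mul (.v 1) (.add (.add (.c (-35000211500578957338)) (.mul (.v 0) (.add (.c (-39547572816994829178)) (.mul (.v 0) (.add (.c (-149726165765060440608)) (.mul (.v 0) (.add (.c 99963625846447061868) (.mul (.v 0) (.add (.c 167178497714905320000) (.mul (.v 0) (.c 21772044923463936000))))))))))) (.mul (.v 1) (.add (.add (.c (-53591753941357766760)) (.mul (.v 0) (.add (.c 47639139925765528080) (.mul (.v 0) (.add (.c 287639133621033750960) (.mul (.v 0) (.add (.c 201671491861143360000) (.mul (.v 0) (.c 23511927563136000000))))))))) (.mul (.v 1) (.add (.c 1502479786050720000000) (.mul (.v 0) (.add (.c (-3391229735752993920000)) (.mul (.v 0) (.add (.c (-3397861295337801600000)) (.mul (.v 0) (.c (-423214696136448000000)))))))))))))))) (.mul (.v 3) (.add (.add (.add (.c 1263948251225670984) (.mul (.v 0) (.add (.c 1503275717204527146) (.mul (.v 0) (.add (.c (-4524091781089779798)) (.mul (.v 0) (.add (.c (-13135770978557136074))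 (.mul (.v 0) (.add (.c (-19004742923080171904)) (.mul (.v 0) (.add (.c (-7939928673503164800)) (.mul (.v 0) (.c (-767011325837414400)))))))))))))) (.mul (.v 1) (.add (.add (.c 250433596288240182) (.mul (.v 0) (.add (.c (-257882981600932458)) (.mul (.v 0) (.add (.c (-3027085244941396488)) (.mul (.v 0) (.add (.c (-5471158718623014852)) (.mul (.v 0) (.add (.c (-2486599497198432000)) (.mul (.v 0) (.c (-250793894006784000)))))))))))) (.mul (.v 1) (.add (.c (-41928816498950304000)) (.mul (.v 0) (.add (.c 12736384782727680000) (.mul (.v 0) (.add (.c 125384753162412864000) (.mul (.v 0) (.add (.c 113262043177926720000) (.mul (.v 0) (.c 14107156537881600000))))))))))))) (.mul (.v 3) (.add (.c (-48746025032266800)) (.mul (.v 0) (.add (.c (-3747449640034800)) (.mul (.v 0) (.add (.c (-74613991592160000)) (.mul (.v 0) (.add (.c 43110916137489600) (.mul (.v 0) (.add (.c 115095531393864000) (.mul (.v 0) (.c 15674618375424000))))))))))))))) (.mul (.v 2) (.mul (.v 2) (.add (.add (.add (.add (.c 47527649014230746340) (.mul (.v 0) (.add (.c (-72882227840636002200))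 (.mul (.v 0) (.add (.c (-282567091936690185840)) (.mul (.v 0) (.add (.c (-520299040661848735920)) (.mul (.v 0) (.add (.c (-214140214048322520000)) (.mul (.v 0) (.c (-20173233849170688000)))))))))))) (.mul (.v 1) (.add (.add (.c (-2313903030503507340)) (.mul (.v 0) (.add (.c (-30658264559351002440)) (.mul (.v 0) (.add (.c (-120459575505444109800)) (.mul (.v 0) (.add (.c (-50655434290574400000)) (.mul (.v 0) (.c (-4702385512627200000)))))))))) (.mul (.v 1) (.add (.c (-1001653190700480000000)) (.mul (.v 0) (.add (.c 2260819823835329280000) (.mul (.v 0) (.add (.c 2265240863558534400000) (.mul (.v 0) (.c 282143130757632000000))))))))))) (.mul (.v 3) (.add (.c (-13976272166316768000)) (.mul (.v 0) (.add (.c 4245461594242560000) (.mul (.v 0) (.add (.c 41794917720804288000) (.mul (.v 0) (.add (.c 37754014392642240000) (.mul (.v 0) (.c 4702385512627200000))))))))))) (.mul (.v 2) (.mul (.v 2) (.add (.c (-500826595350240000000)) (.mul (.v 0) (.add (.c 1130409911917664640000) (.mul (.v 0) (.add (.c 1132620431779267200000) (.mul (.v 0) (.c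 141071565378816000000)))))))))))))))) (.mul (.v 4) (.add (.add (.mul (.v 3) (.mul (.v 3) (.add (.add (.c (-1134899576410126)) (.mul (.v 0) (.add (.c (-66053177388288)) (.mul (.v 0) (.add (.c 6910671903760436) (.mul (.v 0) (.add (.c 25273496311661772) (.mul (.v 0) (.add (.c 47831326623832614) (.mul (.v 0) (.add (.c 63450324808147066) (.mul (.v 0) (.add (.c 34465086461520000) (.mul (.v 0) (.c 4145449201770240))))))))))))))) (.mul (.v 1) (.add (.add (.c (-26280435096)) (.mul (.v 0) (.add (.c (-268878105312)) (.mul (.v 0) (.add (.c (-535391970408)) (.mul (.v 0) (.add (.c (-458969035760)) (.mul (.v 0) (.c (-314700068608)))))))))) (.mul (.v 1) (.add (.c 32824206644562000) (.mul (.v 0) (.add (.c (-19206361019210400)) (.mul (.v 0) (.add (.c (-83553184204920000)) (.mul (.v 0) (.add (.c (-41624904798748800)) (.mul (.v 0) (.add (.c (-129244074230700000)) (.mul (.v 0) (.c (-27636328011801600)))))))))))))))))) (.mul (.v 2) (.mul (.v 2) (.add (.add (.add (.add (.c 141131315543553698) (.mul (.v 0) (.add (.c (-1103657637148603914)) (.mul (.v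 0) (.add (.c (-1411088472182011432)) (.mul (.v 0) (.add (.c (-1185871815910451672)) (.mul (.v 0) (.add (.c 2711289948750772270) (.mul (.v 0) (.add (.c 6786929989891711784) (.mul (.v 0) (.add (.c 5754102844234680000) (.mul (.v 0) (.c 859029195700166400))))))))))))))) (.mul (.v 1) (.add (.add (.c (-951348739615571834)) (.mul (.v 0) (.add (.c (-654867106639967030)) (.mul (.v 0) (.add (.c (-369966315660976030)) (.mul (.v 0) (.add (.c 2123655780069036310) (.mul (.v 0) (.add (.c 3831485820276991872) (.mul (.v 0) (.add (.c 5152888886969218080) (.mul (.v 0) (.add (.c 907232631856301940) (.mul (.v 0) (.add (.c (-1449425814336360)) (.mul (.v 0) (.c (-275238249840120)))))))))))))))))) (.mul (.v 1) (.add (.add (.c 24521952230808602562) (.mul (.v 0) (.add (.c (-4838252729698586130)) (.mul (.v 0) (.add (.c (-18347825692434861828)) (.mul (.v 0) (.add (.c (-71408770322612203698)) (.mul (.v 0) (.add (.c (-190705506258044700000)) (.mul (.v 0) (.c (-38386859608392422400)))))))))))) (.mul (.v 1) (.add (.add (.c 41139605531541165480) (.mul (.v 0)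 (.add (.c (-37177759828898787120)) (.mul (.v 0) (.add (.c (-207599487246133440360)) (.mul (.v 0) (.add (.c (-238279075036236000000)) (.mul (.v 0) (.c (-41454492017702400000)))))))))) (.mul (.v 1) (.add (.c (-945417290751442800000)) (.mul (.v 0) (.add (.c 2144367869187663360000) (.mul (.v 0) (.add (.c 3933719641130760000000) (.mul (.v 0) (.c 746180856318643200000))))))))))))))) (.mul (.v 3) (.add (.add (.add (.c (-1130890569132380156)) (.mul (.v 0) (.add (.c (-142682128809860888)) (.mul (.v 0) (.add (.c 3410573430813975068) (.mul (.v 0) (.add (.c 9623115673123751470) (.mul (.v 0) (.add (.c 14517096070591776072) (.mul (.v 0) (.add (.c 9855448133155560000) (.mul (.v 0) (.c 1352337650710824960))))))))))))) (.mul (.v 1) (.add (.add (.c (-148906580845096038)) (.mul (.v 0) (.add (.c 61350073040719950) (.mul (.v 0) (.add (.c 1673547509425297452) (.mul (.v 0) (.add (.c 4059946459570723662) (.mul (.v 0) (.add (.c 3054859936362000000) (.mul (.v 0) (.c 442181248188825600))))))))))) (.mul (.v 1) (.add (.c 35769095270197632000) (.mul (.v 0)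 (.add (.c (-27703375228533240000)) (.mul (.v 0) (.add (.c (-93242537282215872000)) (.mul (.v 0) (.add (.c (-131123988037692000000)) (.mul (.v 0) (.c (-24872695210621440000)))))))))))))) (.mul (.v 3) (.add (.c 32824206644562000) (.mul (.v 0) (.add (.c (-19206361019210400)) (.mul (.v 0) (.add (.c (-83553184204920000)) (.mul (.v 0) (.add (.c (-41624904798748800)) (.mul (.v 0) (.add (.c (-129244074230700000)) (.mul (.v 0) (.c (-27636328011801600)))))))))))))))) (.mul (.v 2) (.mul (.v 2) (.add (.add (.add (.add (.c (-29991206013855174540)) (.mul (.v 0) (.add (.c 59048035507226561880) (.mul (.v 0) (.add (.c 178228200427149649140) (.mul (.v 0) (.add (.c 386120431629115464960) (.mul (.v 0) (.add (.c 267335492815556100000) (.mul (.v 0) (.c 35567954151188659200))))))))))) (.mul (.v 1) (.add (.add (.c 6552763781778296940) (.mul (.v 0) (.add (.c 240536398529063160) (.mul (.v 0) (.add (.c 83276188996922231700) (.mul (.v 0) (.add (.c 63447090985980000000) (.mul (.v 0) (.c 8290898403540480000))))))))) (.mul (.v 1) (.add (.c 630278193834295200000)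 (.mul (.v 0) (.add (.c (-1429578579458442240000)) (.mul (.v 0) (.add (.c (-2622479760753840000000)) (.mul (.v 0) (.c (-497453904212428800000)))))))))))) (.mul (.v 3) (.add (.c 11923031756732544000) (.mul (.v 0) (.add (.c (-9234458409511080000)) (.mul (.v 0) (.add (.c (-31080845760738624000)) (.mul (.v 0) (.add (.c (-43707996012564000000)) (.mul (.v 0) (.c (-8290898403540480000)))))))))))) (.mul (.v 2) (.mul (.v 2) (.add (.c 315139096917147600000) (.mul (.v 0) (.add (.c (-714789289729221120000)) (.mul (.v 0) (.add (.c (-1311239880376920000000)) (.mul (.v 0) (.c (-248726952106214400000))))))))))))))))) (.mul (.v 4) (.add (.add (.mul (.v 3) (.mul (.v 3) (.add (.add (.c 484887964864856) (.mul (.v 0) (.add (.c 55621350407734) (.mul (.v 0) (.add (.c (-4361177943860136)) (.mul (.v 0) (.add (.c (-11687159177247688)) (.mul (.v 0) (.add (.c (-22240913181540536)) (.mul (.v 0) (.add (.c (-30328106386005162)) (.mul (.v 0) (.add (.c (-26470340099550720)) (.mul (.v 0) (.c (-5639741420976000)))))))))))))))) (.mul (.v 1) (.add (.add (.c 2475596040)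 (.mul (.v 0) (.add (.c 53217340188) (.mul (.v 0) (.add (.c 151516681452) (.mul (.v 0) (.add (.c 109946865192) (.mul (.v 0) (.c 109329702324))))))))) (.mul (.v 1) (.add (.c (-14389246520186400)) (.mul (.v 0) (.add (.c 5938623473072400) (.mul (.v 0) (.add (.c 116759638916179200) (.mul (.v 0) (.add (.c 64975131958258800) (.mul (.v 0) (.add (.c 93982649924073600) (.mul (.v 0) (.c 37598276139840000))))))))))))))))) (.mul (.v 2) (.mul (.v 2) (.add (.add (.add (.add (.c (-58487422717460350)) (.mul (.v 0) (.add (.c 679259582990178428) (.mul (.v 0) (.add (.c 116637963742962546) (.mul (.v 0) (.add (.c (-87301055683845368)) (.mul (.v 0) (.add (.c (-1963390511271811610)) (.mul (.v 0) (.add (.c (-3559165914136096104)) (.mul (.v 0) (.add (.c (-4346432061327279360)) (.mul (.v 0) (.c (-1168679750013360000)))))))))))))))) (.mul (.v 1) (.add (.add (.c 651725937157712764) (.mul (.v 0) (.add (.c (-396013510715237080)) (.mul (.v 0) (.add (.c (-654062809716653254)) (.mul (.v 0) (.add (.c (-2853050289190873340)) (.mul (.v 0) (.add (.c (-2734996820345096020))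 (.mul (.v 0) (.add (.c (-3831685935161759400)) (.mul (.v 0) (.add (.c (-1236577628312014680)) (.mul (.v 0) (.add (.c 924510657484800) (.mul (.v 0) (.c 192828030723840))))))))))))))))) (.mul (.v 1) (.add (.add (.c (-11013828887311045362)) (.mul (.v 0) (.add (.c 3212050643909309490) (.mul (.v 0) (.add (.c 76624478782755368514) (.mul (.v 0) (.add (.c 66275906691046144326) (.mul (.v 0) (.add (.c 139720374535926211200) (.mul (.v 0) (.c 52224005558237760000))))))))))) (.mul (.v 1) (.add (.add (.c (-22936611952378550760)) (.mul (.v 0) (.add (.c 25003037991356800560) (.mul (.v 0) (.add (.c 106544368143162305880) (.mul (.v 0) (.add (.c 177417914940150912000) (.mul (.v 0) (.c 56397414209760000000))))))))) (.mul (.v 1) (.add (.c 396099631195941600000) (.mul (.v 0) (.add (.c (-862764439430374560000)) (.mul (.v 0) (.add (.c (-2901970948490392320000)) (.mul (.v 0) (.c (-1015153455775680000000)))))))))))))))) (.mul (.v 3) (.add (.add (.add (.c 699982187431002922) (.mul (.v 0) (.add (.c (-472539230701757014)) (.mul (.v 0) (.add (.c (-2145914765831483308))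 (.mul (.v 0) (.add (.c (-5532359823073976390)) (.mul (.v 0) (.add (.c (-7412202318105868696)) (.mul (.v 0) (.add (.c (-7496402533173815040)) (.mul (.v 0) (.c (-1839808979109504000)))))))))))))) (.mul (.v 1) (.add (.add (.c 59822344388735238) (.mul (.v 0) (.add (.c 7351818473700930) (.mul (.v 0) (.add (.c (-710927709095750046)) (.mul (.v 0) (.add (.c (-1909972045479216234)) (.mul (.v 0) (.add (.c (-2313587733319411200)) (.mul (.v 0) (.c (-601572418237440000)))))))))))) (.mul (.v 1) (.add (.c (-21493619472801672000)) (.mul (.v 0) (.add (.c 25882573223554416000) (.mul (.v 0) (.add (.c 58367457107803152000) (.mul (.v 0) (.add (.c 96732364949679744000) (.mul (.v 0) (.c 33838448525856000000))))))))))))) (.mul (.v 3) (.add (.c (-14389246520186400)) (.mul (.v 0) (.add (.c 5938623473072400) (.mul (.v 0) (.add (.c 116759638916179200) (.mul (.v 0) (.add (.c 64975131958258800) (.mul (.v 0) (.add (.c 93982649924073600) (.mul (.v 0) (.c 37598276139840000))))))))))))))) (.mul (.v 2) (.mul (.v 2) (.add (.add (.add (.add (.c 12590725025866449120)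 (.mul (.v 0) (.add (.c (-29621171927397857160)) (.mul (.v 0) (.add (.c (-90161586178176159180)) (.mul (.v 0) (.add (.c (-178972469448192758160)) (.mul (.v 0) (.add (.c (-203831889686285961600)) (.mul (.v 0) (.c (-48388981391974080000)))))))))))) (.mul (.v 1) (.add (.add (.c (-5721609029383281420)) (.mul (.v 0) (.add (.c 9506805106131217320) (.mul (.v 0) (.add (.c (-28721133900505163820)) (.mul (.v 0) (.add (.c (-48441428340577920000)) (.mul (.v 0) (.c (-11279482841952000000)))))))))) (.mul (.v 1) (.add (.c (-264066420797294400000)) (.mul (.v 0) (.add (.c 575176292953583040000) (.mul (.v 0) (.add (.c 1934647298993594880000) (.mul (.v 0) (.c 676768970517120000000))))))))))) (.mul (.v 3) (.add (.c (-7164539824267224000)) (.mul (.v 0) (.add (.c 8627524407851472000) (.mul (.v 0) (.add (.c 19455819035934384000) (.mul (.v 0) (.add (.c 32244121649893248000) (.mul (.v 0) (.c 11279482841952000000))))))))))) (.mul (.v 2) (.mul (.v 2) (.add (.c (-132033210398647200000)) (.mul (.v 0) (.add (.c 287588146476791520000) (.mul (.v 0) (.add (.c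 967323649496797440000) (.mul (.v 0) (.c 338384485258560000000)))))))))))))))) (.mul (.v 4) (.add (.add (.mul (.v 3) (.mul (.v 3) (.add (.add (.c (-121725639100800)) (.mul (.v 0) (.add (.c (-128293813811872)) (.mul (.v 0) (.add (.c 1888230067535230) (.mul (.v 0) (.add (.c 3875543357186712) (.mul (.v 0) (.add (.c 7538688366215178) (.mul (.v 0) (.add (.c 9048868129007012) (.mul (.v 0) (.add (.c 11191958836217760) (.mul (.v 0) (.c 4446734753364480))))))))))))))) (.mul (.v 1) (.add (.mul (.v 0) (.add (.c (-4951192080)) (.mul (.v 0) (.add (.c (-27593375088)) (.mul (.v 0) (.add (.c (-14590272760)) (.mul (.v 0) (.c (-23614719884))))))))) (.mul (.v 1) (.add (.c 3651769173024000) (.mul (.v 0) (.add (.c 2820442155487200) (.mul (.v 0) (.add (.c (-61364764198227600)) (.mul (.v 0) (.add (.c (-55948289113404000)) (.mul (.v 0) (.add (.c (-40870908214651800)) (.mul (.v 0) (.c (-29644898355763200)))))))))))))))))) (.mul (.v 2) (.mul (.v 2) (.add (.add (.add (.add (.c 14488073529342456) (.mul (.v 0) (.add (.c (-268295943907120940)) (.mul (.v 0)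 (.add (.c 183764940868615346) (.mul (.v 0) (.add (.c 457494370251695098) (.mul (.v 0) (.add (.c 870149556180209016) (.mul (.v 0) (.add (.c 1343610902026648140) (.mul (.v 0) (.add (.c 1853376403607850480) (.mul (.v 0) (.c 921462257224972800))))))))))))))) (.mul (.v 1) (.add (.add (.c (-280189929800912196)) (.mul (.v 0) (.add (.c 415960472268881440) (.mul (.v 0) (.add (.c 705320791714694750) (.mul (.v 0) (.add (.c 1472090979195311718) (.mul (.v 0) (.add (.c 1567721348571067412) (.mul (.v 0) (.add (.c 1647421998549210840) (.mul (.v 0) (.add (.c 975672760375685160) (.mul (.v 0) (.add (.c (-396051358295040)) (.mul (.v 0) (.c (-89624295970440)))))))))))))))))) (.mul (.v 1) (.add (.add (.c 2822853988449903840) (.mul (.v 0) (.add (.c 2250320416331989476) (.mul (.v 0) (.add (.c (-45036359658976229034)) (.mul (.v 0) (.add (.c (-47258021369905674246)) (.mul (.v 0) (.add (.c (-60524272641860724600)) (.mul (.v 0) (.c (-41176763816155084800)))))))))))) (.mul (.v 1) (.add (.add (.c 8803397713685088960) (.mul (.v 0) (.add (.c (-13330846233338090160))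 (.mul (.v 0) (.add (.c (-39693491065248350040)) (.mul (.v 0) (.add (.c (-76214257992000216000)) (.mul (.v 0) (.c (-44467347533644800000)))))))))) (.mul (.v 1) (.add (.c (-98597767671648000000)) (.mul (.v 0) (.add (.c 183252864847176000000) (.mul (.v 0) (.add (.c 1252593478495823760000) (.mul (.v 0) (.c 800412255605606400000))))))))))))))) (.mul (.v 3) (.add (.add (.add (.c (-285862091776722864)) (.mul (.v 0) (.add (.c 402143603566349788) (.mul (.v 0) (.add (.c 1054076842846414856) (.mul (.v 0) (.add (.c 2160220449223727328) (.mul (.v 0) (.add (.c 2612702088159604124) (.mul (.v 0) (.add (.c 3185219505117763920) (.mul (.v 0) (.c 1450623692875345920))))))))))))) (.mul (.v 1) (.add (.add (.c (-14608674228061920)) (.mul (.v 0) (.add (.c (-16834111412183724)) (.mul (.v 0) (.add (.c 242063375785663086) (.mul (.v 0) (.add (.c 562204219861972314) (.mul (.v 0) (.add (.c 985221101879373600) (.mul (.v 0) (.c 474318373692211200))))))))))) (.mul (.v 1) (.add (.c 8633852451680400000) (.mul (.v 0) (.add (.c (-14612514612878448000)) (.mul (.v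 0) (.add (.c (-29453786283402720000)) (.mul (.v 0) (.add (.c (-41753115949860792000)) (.mul (.v 0) (.c (-26680408520186880000)))))))))))))) (.mul (.v 3) (.add (.c 3651769173024000) (.mul (.v 0) (.add (.c 2820442155487200) (.mul (.v 0) (.add (.c (-61364764198227600)) (.mul (.v 0) (.add (.c (-55948289113404000)) (.mul (.v 0) (.add (.c (-40870908214651800)) (.mul (.v 0) (.c (-29644898355763200)))))))))))))))) (.mul (.v 2) (.mul (.v 2) (.add (.add (.add (.add (.c (-3136888727246774880)) (.mul (.v 0) (.add (.c 8409261788464145280) (.mul (.v 0) (.add (.c 32027269378879635060) (.mul (.v 0) (.add (.c 50246475501891094560) (.mul (.v 0) (.add (.c 86502517914456217800) (.mul (.v 0) (.c 38152984183867238400))))))))))) (.mul (.v 1) (.add (.add (.c 2708412651775559520) (.mul (.v 0) (.add (.c (-6152443294242490920)) (.mul (.v 0) (.add (.c 421788268239973740) (.mul (.v 0) (.add (.c 20543436725519160000) (.mul (.v 0) (.c 8893469506728960000))))))))) (.mul (.v 1) (.add (.c 65731845114432000000) (.mul (.v 0) (.add (.c (-122168576564784000000))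 (.mul (.v 0) (.add (.c (-835062318997215840000)) (.mul (.v 0) (.c (-533608170403737600000)))))))))))) (.mul (.v 3) (.add (.c 2877950817226800000) (.mul (.v 0) (.add (.c (-4870838204292816000)) (.mul (.v 0) (.add (.c (-9817928761134240000)) (.mul (.v 0) (.add (.c (-13917705316620264000)) (.mul (.v 0) (.c (-8893469506728960000)))))))))))) (.mul (.v 2) (.mul (.v 2) (.add (.c 32865922557216000000) (.mul (.v 0) (.add (.c (-61084288282392000000)) (.mul (.v 0) (.add (.c (-417531159498607920000)) (.mul (.v 0) (.c (-266804085201868800000))))))))))))))))) (.mul (.v 4) (.add (.add (.mul (.v 3) (.mul (.v 3) (.add (.add (.c 13454846737920) (.mul (.v 0) (.add (.c 71189541884160) (.mul (.v 0) (.add (.c (-474815389919944)) (.mul (.v 0) (.add (.c (-889568948997478)) (.mul (.v 0) (.add (.c (-1472708868885024)) (.mul (.v 0) (.add (.c (-1864838106980794)) (.mul (.v 0) (.add (.c (-2139131599260480)) (.mul (.v 0) (.c (-1855388262388320)))))))))))))))) (.mul (.v 1) (.add (.mul (.v 0) (.mul (.v 0) (.add (.c 2475596040) (.mul (.v 0) (.add (.c 656469996)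 (.mul (.v 0) (.c 2403890172))))))) (.mul (.v 1) (.add (.c (-403645402137600)) (.mul (.v 0) (.add (.c (-2135686256524800)) (.mul (.v 0) (.add (.c 15425383535920800) (.mul (.v 0) (.add (.c 23359975538842800) (.mul (.v 0) (.add (.c 9290140279556400) (.mul (.v 0) (.c 12369255082588800))))))))))))))))) (.mul (.v 2) (.mul (.v 2) (.add (.add (.add (.add (.c (-1601126761812480)) (.mul (.v 0) (.add (.c 60287644097826144) (.mul (.v 0) (.add (.c (-99102334163302814)) (.mul (.v 0) (.add (.c (-222647863418373008)) (.mul (.v 0) (.add (.c (-209117850338156514)) (.mul (.v 0) (.add (.c (-358886853675246626)) (.mul (.v 0) (.add (.c (-374649306671363040)) (.mul (.v 0) (.c (-384477678817135200)))))))))))))))) (.mul (.v 1) (.add (.add (.c 68764010947430400) (.mul (.v 0) (.add (.c (-158234603934975384)) (.mul (.v 0) (.add (.c (-299520983671344580)) (.mul (.v 0) (.add (.c (-360040034021064476)) (.mul (.v 0) (.add (.c (-558722876300527668)) (.mul (.v 0) (.add (.c (-350341254247470120)) (.mul (.v 0) (.add (.c (-407215591766210640)) (.mul (.v 0) (.add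 (.c 102177103996440) (.mul (.v 0) (.c 24830973775320))))))))))))))))) (.mul (.v 1) (.add (.add (.c (-312017895852364800)) (.mul (.v 0) (.add (.c (-1650921893996022240)) (.mul (.v 0) (.add (.c 11649845164459893486) (.mul (.v 0) (.add (.c 18320911823659696182) (.mul (.v 0) (.add (.c 13457112316284610800) (.mul (.v 0) (.c 17180895309715843200))))))))))) (.mul (.v 1) (.add (.add (.c (-2062920328422912000)) (.mul (.v 0) (.add (.c 4605847918837007040) (.mul (.v 0) (.add (.c 10406775075085600920) (.mul (.v 0) (.add (.c 16131372424552368000) (.mul (.v 0) (.c 18553882623883200000))))))))) (.mul (.v 1) (.add (.c 10898425857715200000) (.mul (.v 0) (.add (.c (-4224080926517760000)) (.mul (.v 0) (.add (.c (-272795407600200480000)) (.mul (.v 0) (.c (-333969887229897600000)))))))))))))))) (.mul (.v 3) (.add (.add (.add (.c 68764010947430400) (.mul (.v 0) (.add (.c (-153349316072900496)) (.mul (.v 0) (.add (.c (-333962348888428966)) (.mul (.v 0) (.add (.c (-463473838694866526)) (.mul (.v 0) (.add (.c (-661009446972870756)) (.mul (.v 0) (.add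 (.c (-629205966983360160)) (.mul (.v 0) (.c (-605268882041345280)))))))))))))) (.mul (.v 1) (.add (.add (.c 1614581608550400) (.mul (.v 0) (.add (.c 8544342562065120) (.mul (.v 0) (.add (.c (-57376604341655514)) (.mul (.v 0) (.add (.c (-109605110913263178)) (.mul (.v 0) (.add (.c (-197445844588852800)) (.mul (.v 0) (.c (-197908081321420800)))))))))))) (.mul (.v 1) (.add (.c (-2062920328422912000)) (.mul (.v 0) (.add (.c 4848049353226464000) (.mul (.v 0) (.add (.c 9881591075089272000) (.mul (.v 0) (.add (.c 9093180253340016000) (.mul (.v 0) (.c 11132329574329920000))))))))))))) (.mul (.v 3) (.add (.c (-403645402137600)) (.mul (.v 0) (.add (.c (-2135686256524800)) (.mul (.v 0) (.add (.c 15425383535920800) (.mul (.v 0) (.add (.c 23359975538842800) (.mul (.v 0) (.add (.c 9290140279556400) (.mul (.v 0) (.c 12369255082588800))))))))))))))) (.mul (.v 2) (.mul (.v 2) (.add (.add (.add (.add (.c 346731400436198400) (.mul (.v 0) (.add (.c (-915986935923253920)) (.mul (.v 0) (.add (.c (-6182265396553219200)) (.mul (.v 0) (.add (.c (-8895262938177684960))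 (.mul (.v 0) (.add (.c (-16950645618321344400)) (.mul (.v 0) (.c (-15919231291291785600)))))))))))) (.mul (.v 1) (.add (.add (.c (-687640109474304000)) (.mul (.v 0) (.add (.c 1858210788911496480) (.mul (.v 0) (.add (.c 2768678086802348340) (.mul (.v 0) (.add (.c (-4007132086765680000)) (.mul (.v 0) (.c (-3710776524776640000)))))))))) (.mul (.v 1) (.add (.c (-7265617238476800000)) (.mul (.v 0) (.add (.c 2816053951011840000) (.mul (.v 0) (.add (.c 181863605066800320000) (.mul (.v 0) (.c 222646591486598400000))))))))))) (.mul (.v 3) (.add (.c (-687640109474304000)) (.mul (.v 0) (.add (.c 1616016451075488000) (.mul (.v 0) (.add (.c 3293863691696424000) (.mul (.v 0) (.add (.c 3031060084446672000) (.mul (.v 0) (.c 3710776524776640000))))))))))) (.mul (.v 2) (.mul (.v 2) (.add (.c (-3632808619238400000)) (.mul (.v 0) (.add (.c 1408026975505920000) (.mul (.v 0) (.add (.c 90931802533400160000) (.mul (.v 0) (.c 111323295743299200000)))))))))))))))) (.mul (.v 4) (.add (.mul (.v 3) (.mul (.v 3) (.add (.mul (.v 0) (.add (.c (-13454846737920))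 (.mul (.v 0) (.add (.c 50536097216640) (.mul (.v 0) (.add (.c 118221238866960) (.mul (.v 0) (.add (.c 80617107464640) (.mul (.v 0) (.add (.c 271978768996200) (.mul (.v 0) (.add (.c 67381462955520) (.mul (.v 0) (.c 322365604628160)))))))))))))) (.mul (.v 1) (.mul (.v 1) (.mul (.v 0) (.add (.c 403645402137600) (.mul (.v 0) (.add (.c (-1516082916499200)) (.mul (.v 0) (.add (.c (-3856579171221600)) (.mul (.v 0) (.add (.c (-758041458249600)) (.mul (.v 0) (.c (-2149104030854400)))))))))))))))) (.mul (.v 2) (.mul (.v 2) (.add (.add (.add (.mul (.v 0) (.add (.c (-5664490476664320)) (.mul (.v 0) (.add (.c 18245619984249000) (.mul (.v 0) (.add (.c 35324827180408904) (.mul (.v 0) (.add (.c 20847280921958336) (.mul (.v 0) (.add (.c 52458389984555968) (.mul (.v 0) (.add (.c 18226685729468160) (.mul (.v 0) (.c 66801316959057600)))))))))))))) (.mul (.v 1) (.add (.add (.c (-7265617238476800)) (.mul (.v 0) (.add (.c 24257326663987200) (.mul (.v 0) (.add (.c 47863660128412380) (.mul (.v 0) (.add (.c 34189831150683176) (.mul (.v 0) (.add (.c 88012355619117840)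 (.mul (.v 0) (.add (.c 22196038235459760) (.mul (.v 0) (.add (.c 70762007339442540) (.mul (.v 0) (.add (.c (-11996170069560)) (.mul (.v 0) (.c (-3103871721840)))))))))))))))))) (.mul (.v 1) (.add (.mul (.v 0) (.add (.c 312017895852364800) (.mul (.v 0) (.add (.c (-1171932094453881600)) (.mul (.v 0) (.add (.c (-2886336693480837600)) (.mul (.v 0) (.add (.c (-1018555039401379200)) (.mul (.v 0) (.c (-2985105498856761600))))))))))) (.mul (.v 1) (.add (.add (.c 217968517154304000) (.mul (.v 0) (.add (.c (-727719799919616000)) (.mul (.v 0) (.add (.c (-1474450907143536000)) (.mul (.v 0) (.add (.c (-1000614724889472000)) (.mul (.v 0) (.c (-3223656046281600000)))))))))) (.mul (.v 1) (.mul (.v 0) (.add (.c (-4359370343086080000)) (.mul (.v 0) (.add (.c 19102644747889920000) (.mul (.v 0) (.c 58025808833068800000)))))))))))))) (.mul (.v 3) (.add (.add (.add (.c (-7265617238476800)) (.mul (.v 0) (.add (.c 24257326663987200) (.mul (.v 0) (.add (.c 48650534242148160) (.mul (.v 0) (.add (.c 34191814797009056) (.mul (.v 0) (.add (.c 98757658664528040)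 (.mul (.v 0) (.add (.c 26245079821175040) (.mul (.v 0) (.c 105162823909808640))))))))))))) (.mul (.v 1) (.add (.mul (.v 0) (.add (.c (-1614581608550400)) (.mul (.v 0) (.add (.c 6064331665996800) (.mul (.v 0) (.add (.c 14388371365104000) (.mul (.v 0) (.add (.c 9096497498995200) (.mul (.v 0) (.c 34385664493670400)))))))))) (.mul (.v 1) (.add (.c 217968517154304000) (.mul (.v 0) (.add (.c (-727719799919616000)) (.mul (.v 0) (.add (.c (-1547107079528304000)) (.mul (.v 0) (.add (.c (-636754824929664000)) (.mul (.v 0) (.c (-1934193627768960000)))))))))))))) (.mul (.v 3) (.mul (.v 0) (.add (.c 403645402137600) (.mul (.v 0) (.add (.c (-1516082916499200)) (.mul (.v 0) (.add (.c (-3856579171221600)) (.mul (.v 0) (.add (.c (-758041458249600)) (.mul (.v 0) (.c (-2149104030854400))))))))))))))) (.mul (.v 2) (.mul (.v 2) (.add (.add (.add (.mul (.v 0) (.add (.c (-56106710897126400)) (.mul (.v 0) (.add (.c 332022158713324800) (.mul (.v 0) (.add (.c 1095338216060704800) (.mul (.v 0) (.add (.c 665307719857065600) (.mul (.v 0) (.c 2765896887709612800))))))))))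 (.mul (.v 1) (.add (.add (.c 72656172384768000) (.mul (.v 0) (.add (.c (-242573266639872000)) (.mul (.v 0) (.add (.c (-588358532227536000)) (.mul (.v 0) (.add (.c 151608291649920000) (.mul (.v 0) (.c 644731209256320000))))))))) (.mul (.v 1) (.mul (.v 0) (.add (.c 2906246895390720000) (.mul (.v 0) (.add (.c (-12735096498593280000)) (.mul (.v 0) (.c (-38683872555379200000))))))))))) (.mul (.v 3) (.add (.c 72656172384768000) (.mul (.v 0) (.add (.c (-242573266639872000)) (.mul (.v 0) (.add (.c (-515702359842768000)) (.mul (.v 0) (.add (.c (-212251608309888000)) (.mul (.v 0) (.c (-644731209256320000)))))))))))) (.mul (.v 2) (.mul (.v 2) (.mul (.v 0) (.add (.c 1453123447695360000) (.mul (.v 0) (.add (.c (-6367548249296640000)) (.mul (.v 0) (.c (-19341936277689600000)))))))))))))))))))))))))))))))))))))))))))))))))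

/-- the coefficients and the Bernstein coefficients -/
def L : List (Nat × PE) := [
  (1, Vale.Agent.P224.S11.K.K0.P),
  (4, Vale.Agent.P224.S11.K.K1.P),
  (1, Vale.Agent.P224.S11.K.K2.P),
  (2, Vale.Agent.P224.S11.K.K3.P),
  (1, Vale.Agent.P224.S11.K.K4.P),
  (4, Vale.Agent.P224.S11.K.K5.P),
  (1, Vale.Agent.P224.S11.K.K6.P),
  (4, Vale.Agent.P224.S11.K.K7.P),
  (1, Vale.Agent.P224.S11.K.K8.P),
  (2, Vale.Agent.P224.S11.K.K9.P),
  (1, Vale.Agent.P224.S11.K.K10.P),
  (2, Vale.Agent.P224.S11.K.K11.P),
  (1, Vale.Agent.P224.S11.K.K12.P),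
  (4, Vale.Agent.P224.S11.K.K13.P),
  (1, Vale.Agent.P224.S11.K.K14.P),
  (4, Vale.Agent.P224.S11.K.K15.P),
  (1, Vale.Agent.P224.S11.K.K16.P),
  (8, Vale.Agent.P224.S11.K.K17.P)]

/-- the integers replacing the first four variables -/
def Ms : List Nat := [
  Nat.add (Nat.pow 2 94) 1075527200898229613,
  Nat.add (Nat.pow 2 814) 1070408644019699239,
  Nat.add (Nat.pow 2 3624) 1026802302190162061,
  Nat.add (Nat.pow 2 22110) 836924351570040769]

set_option maxRecDepth 100000 in
/-- **The identity**, checked by the kernel. -/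
theorem idT : chk Ms (.sub (.mul (.c (Int.ofNat 16)) Q) (tsum 1 0 1 17 L 0)) = true := by
  decide +kernel

/-- **Positivity** on the interval. -/
theorem posT {E : Type*} [NormedAddCommGroup E] [InnerProductSpace ℝ E] {x N y w : E}
    (hx : ‖x‖ = 1) (hN : ‖N‖ = 1) (hy : ‖y‖ = 1) (hw : ‖w‖ = 1)
    (hxN : ⟪x, N⟫ = 0) (hyw : ⟪y, w⟫ = 0) {T : ℝ}
    (h0 : ((0 : ℤ) : ℝ) ≤ ((1 : ℤ) : ℝ) * T) (h1 : ((1 : ℤ) : ℝ) * T ≤ ((1 : ℤ) : ℝ)) :
    0 ≤ PE.ev (vT T ⟪x, y⟫ ⟪x, w⟫ ⟪N, y⟫ ⟪N, w⟫) Q :=
  pos_of_tsum 1 0 1 16 17 (by norm_num) idT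
    (fun i hi => vT_ge _ _ _ _ _ (le_trans (by decide) hi)) h0 h1
    (pl_cons (Vale.Agent.P224.S11.K.K0.pos hx hN hy hw hxN hyw T) (pl_cons (Vale.Agent.P224.S11.K.K1.pos hx hN hy hw hxN hyw T) (pl_cons (Vale.Agent.P224.S11.K.K2.pos hx hN hy hw hxN hyw T) (pl_cons (Vale.Agent.P224.S11.K.K3.pos hx hN hy hw hxN hyw T) (pl_cons (Vale.Agent.P224.S11.K.K4.pos hx hN hy hw hxN hyw T) (pl_cons (Vale.Agent.P224.S11.K.K5.pos hx hN hy hw hxN hyw T) (pl_cons (Vale.Agent.P224.S11.K.K6.pos hx hN hy hw hxN hyw T) (pl_cons (Vale.Agent.P224.S11.K.K7.pos hx hN hy hw hxN hyw T) (pl_cons (Vale.Agent.P224.S11.K.K8.pos hx hN hy hw hxN hyw T) (pl_cons (Vale.Agent.P224.S11.K.K9.pos hx hN hy hw hxN hyw T) (pl_cons (Vale.Agent.P224.S11.K.K10.pos hx hN hy hw hxN hyw T) (pl_cons (Vale.Agent.P224.S11.K.K11.pos hx hN hy hw hxN hyw T) (pl_cons (Vale.Agent.P224.S11.K.K12.pos hx hN hy hw hxN hyw T) (pl_cons (Vale.Agent.P224.S11.K.K13.pos hx hN hy hw hxN hyw T) (pl_cons (Vale.Agent.P224.S11.K.K14.pos hx hN hy hw hxN hyw T) (pl_cons (Vale.Agent.P224.S11.K.K15.pos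 hx hN hy hw hxN hyw T) (pl_cons (Vale.Agent.P224.S11.K.K16.pos hx hN hy hw hxN hyw T) (pl_cons (Vale.Agent.P224.S11.K.K17.pos hx hN hy hw hxN hyw T) pl_nil))))))))))))))))))

end

end Vale.Agent.P224.S11.K.TS
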